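import Vale.Agent.P198.CH.Main
import Vale.Agent.P198.TL.Board
import Vale.Agent.P198.GL.Glue4
import Vale.Agent.P198.Q.ZoomMod

/-!
# P198: the last step of Stage 2 (`CH_Statement`, hence the literal Cannon conjecture)
-/

open Metric Set TopologicalSpace P198Q

namespace P198C137

theorem exists_emb {Z : Type} [MetricSpace Z] (f : Z ≃ₜ sphere (0 : EuclideanSpace ℝ (Fin 3)) 1) :
    ∃ e : ℝ × ℝ → Z, Topology.IsOpenEmbedding e := by
  have : Fact (Module.finrank ℝ (EuclideanSpace ℝ (Fin 3)) = 2 + 1) := ⟨by simp⟩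
  let v : sphere (0 : EuclideanSpace ℝ (Fin 3)) 1 :=
    ⟨EuclideanSpace.single 0 1, by simp⟩
  let st := (stereographic' 2 v).symm
  have h1 : Topology.IsOpenEmbedding st := by
    apply st.isOpenEmbedding
    simp [st]
  let g : ℝ × ℝ ≃ₜ EuclideanSpace ℝ (Fin 2) :=
    (Homeomorph.finTwoArrow (X := ℝ)).symm.trans (EuclideanSpace.equiv (Fin 2) ℝ).symm.toHomeomorph
  exact ⟨f.symm ∘ st ∘ g, f.symm.isOpenEmbedding.comp (h1.comp g.isOpenEmbedding)⟩

theorem crossBd {G Z : Type} [Group G] [MetricSpace Z] [MulAction G Z] [CompactSpace Z]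
    (q : QM G Z) {N : ℕ → Finset Z} (hN : IsNet N)
    (hmod : ∀ t : ℝ, 0 < t → ∃ C : ℝ, ∀ k, md (N k) (hit k) (contDiam Z t) ≤ C) :
    ∃ Cc, P198C.CrossBd N Cc := by
  obtain ⟨t₀, ht₀, h⟩ := md_cross q N hN
  obtain ⟨C, hC, h1⟩ := h 1 le_rfl
  obtain ⟨C', h2⟩ := hmod t₀ ht₀
  refine ⟨C * C', fun i k v hik => ?_⟩
  have h3 := h1 i k v hik (by rw [one_mul]; exact P198C.sc_le_one i)
  simp only [mul_one, one_mul] at h3
  exact h3.trans (mul_le_mul_of_nonneg_left (h2 _) hC.le)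

/-- statement of the chart block -/
theorem ch : P198S2.CH_Statement := by
  intro G Z _ _ _ _ _ q hP ⟨f⟩ N hN hmod
  obtain ⟨e, he⟩ := exists_emb f
  obtain ⟨D, Q, -, hD⟩ := doubling q
  obtain ⟨Cc, hc⟩ := crossBd q hN hmod
  obtain ⟨A, hA, k₀, B, hB⟩ := P198T.exists_boards q hP.t1 he hN hD
  exact P198C.exists_lchart q hP.t1 he hN hD hc hmod hA k₀ B hB

/-- **Cannon's conjecture.** -/
theorem stage2 : Vale.Agent.P198.H.Stage2 := P198GL.stage2_of_chart ch

end P198C137
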