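import Vale.Agent.P198.SQ.Disc
import Vale.Agent.P198.Q.Mod

/-!
# P198 block CH (local chart): boards of cells in the space `Z`
-/

open Metric Set TopologicalSpace P198Q P198S
open scoped Classical

namespace P198C

/-- boundary of the unit square -/
def bdry : Set (ℝ × ℝ) := (Icc 0 1 ×ˢ Icc 0 1) \ (Ioo 0 1 ×ˢ Ioo 0 1)

/-- the open unit square -/
def osqr : Set (ℝ × ℝ) := Ioo 0 1 ×ˢ Ioo 0 1

/-- a board of cells at level `k` inside the chart `e` -/
structure Board {Z : Type*} [MetricSpace Z] (e : ℝ × ℝ → Z) (N : ℕ → Finset Z) (k : ℕ) (A : ℝ) where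
  C : Type
  fin : Fintype C
  H : HexRect C
  cell : C → Set Z
  ctr : C → Z
  ctr_mem : ∀ c, ctr c ∈ N k
  ctr_inj : Function.Injective ctr
  near : ∀ c, cell c ⊆ closedBall (ctr c) (A * sc k)
  isCompact : ∀ c, IsCompact (cell c)
  conn : ∀ c, IsConnected (cell c)
  adj_iff : ∀ c c', c ≠ c' → (H.adj c c' ↔ (cell c ∩ cell c').Nonempty)
  inner : ∀ c, cell c ⊆ e '' (Ioo 0 1 ×ˢ Ioo 0 1)
  frontier : ∀ c z, z ∈ cell c → z ∈ closure (⋃ c, cell c)ᶜ → c ∈ H.L ∪ H.R ∪ H.S ∪ H.T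
  L_near : ∀ c ∈ H.L, ∃ w ∈ e '' (Icc 0 1 ×ˢ {0}), ∃ z ∈ cell c, dist z w ≤ A * sc k
  R_near : ∀ c ∈ H.R, ∃ w ∈ e '' (Icc 0 1 ×ˢ {1}), ∃ z ∈ cell c, dist z w ≤ A * sc k
  S_near : ∀ c ∈ H.S, ∃ w ∈ e '' ({0} ×ˢ Icc 0 1), ∃ z ∈ cell c, dist z w ≤ A * sc k
  T_near : ∀ c ∈ H.T, ∃ w ∈ e '' ({1} ×ˢ Icc 0 1), ∃ z ∈ cell c, dist z w ≤ A * sc k

namespace Board

variable {Z : Type*} [MetricSpace Z] {e : ℝ × ℝ → Z} {N : ℕ → Finset Z} {k : ℕ} {A : ℝ}

instance (B : Board e N k A) : Fintype B.C := B.fin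

/-- cells meeting a set -/
def hits (B : Board e N k A) (κ : Set Z) : Set B.C := {c | (B.cell c ∩ κ).Nonempty}

/-- all side cells -/
def side (B : Board e N k A) : Set B.C := B.H.L ∪ B.H.R ∪ B.H.S ∪ B.H.T

theorem adj_of (B : Board e N k A) {c c' : B.C} (h : c ≠ c') (hn : (B.cell c ∩ B.cell c').Nonempty) :
    B.H.adj c c' := (B.adj_iff c c' h).2 hn

theorem isClosed_cell (B : Board e N k A) (c : B.C) : IsClosed (B.cell c) := (B.isCompact c).isClosed

theorem link_refl (B : Board e N k A) (M : Set B.C) (c : B.C) : Link B.H M c c := .refl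

theorem link_tail (B : Board e N k A) {M : Set B.C} {c d d' : B.C} (h : Link B.H M c d) (hd : d ∈ M)
    (hd' : d' ∈ M) (hn : (B.cell d ∩ B.cell d').Nonempty) : Link B.H M c d' := by
  by_cases heq : d = d'
  · rw [← heq]; exact h
  · exact Relation.ReflTransGen.tail h ⟨B.adj_of heq hn, hd, hd'⟩

theorem link_mem (B : Board e N k A) {M : Set B.C} {c d : B.C} (h : Link B.H M c d) (hc : c ∈ M) :
    d ∈ M := by
  rcases Relation.ReflTransGen.cases_tail h with h1 | ⟨b, -, h2⟩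
  · rw [h1]; exact hc
  · exact h2.2.2

/-- **Chain lemma.** -/
theorem chain (B : Board e N k A) (κ : Set Z) (hκ : IsPreconnected κ) {z : Z}
    (hz : z ∈ κ) {c : B.C} (hc : z ∈ B.cell c) :
    (∃ d ∈ B.side, Link B.H (B.hits κ) c d) ∨
      ∀ w ∈ κ, ∃ d, w ∈ B.cell d ∧ Link B.H (B.hits κ) c d := by
  by_contra hcon
  push Not at hcon
  obtain ⟨hside, w, hw, hwc⟩ := hcon
  have hcm : c ∈ B.hits κ := ⟨z, hc, hz⟩
  set X : Set Z := ⋃ d ∈ {d | Link B.H (B.hits κ) c d}, B.cell d with hX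
  set Y : Set Z := (⋃ d ∈ {d | d ∈ B.hits κ ∧ ¬ Link B.H (B.hits κ) c d}, B.cell d) ∪
    closure (⋃ c, B.cell c)ᶜ with hY
  have hXc : IsClosed X := (Set.toFinite _).isClosed_biUnion fun d _ => B.isClosed_cell d
  have hYc : IsClosed Y :=
    ((Set.toFinite _).isClosed_biUnion fun d _ => B.isClosed_cell d).union isClosed_closure
  have hcov : κ ⊆ X ∪ Y := by
    intro p hp
    by_cases hpc : ∃ d, p ∈ B.cell d
    · obtain ⟨d, hd⟩ := hpc
      have hdm : d ∈ B.hits κ := ⟨p, hd, hp⟩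
      by_cases hl : Link B.H (B.hits κ) c d
      · left
        exact mem_biUnion (show d ∈ {d | Link B.H (B.hits κ) c d} from hl) hd
      · right; left
        exact mem_biUnion (show d ∈ {d | d ∈ B.hits κ ∧ ¬ Link B.H (B.hits κ) c d} from ⟨hdm, hl⟩) hd
    · right; right
      apply subset_closure
      intro hp'
      obtain ⟨d, hd⟩ := mem_iUnion.1 hp'
      exact hpc ⟨d, hd⟩
  have hdis : ∀ p, p ∈ X → p ∈ Y → False := by
    intro p hpX hpY
    obtain ⟨d, hd, hpd⟩ := mem_iUnion₂.1 hpX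
    rcases hpY with hpY | hpY
    · obtain ⟨d', hd', hpd'⟩ := mem_iUnion₂.1 hpY
      exact hd'.2 (B.link_tail hd (B.link_mem hd hcm) hd'.1 ⟨p, hpd, hpd'⟩)
    · exact hside d (B.frontier d p hpd hpY) hd
  have hwY : w ∈ Y := by
    rcases hcov hw with h | h
    · obtain ⟨d, hd, hwd⟩ := mem_iUnion₂.1 h
      exact absurd hd (hwc d hwd)
    · exact h
  have hzX : z ∈ X := mem_biUnion (show c ∈ {d | Link B.H (B.hits κ) c d} from B.link_refl _ c) hc
  obtain ⟨p, -, hpX, hpY⟩ := isPreconnected_closed_iff.1 hκ X Y hXc hYc hcov ⟨z, hz, hzX⟩ ⟨w, hw, hwY⟩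
  exact hdis p hpX hpY

/-- cells meeting a covered connected set are linked. -/
theorem chain_cov (B : Board e N k A) (κ : Set Z) (hκ : IsPreconnected κ) (hcv : κ ⊆ ⋃ c, B.cell c)
    {c d : B.C} (hc : c ∈ B.hits κ) (hd : d ∈ B.hits κ) : Link B.H (B.hits κ) c d := by
  by_contra hcon
  set X : Set Z := ⋃ d ∈ {d | Link B.H (B.hits κ) c d}, B.cell d with hX
  set Y : Set Z := ⋃ d ∈ {d | d ∈ B.hits κ ∧ ¬ Link B.H (B.hits κ) c d}, B.cell d with hY
  have hXc : IsClosed X := (Set.toFinite _).isClosed_biUnion fun d _ => B.isClosed_cell d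
  have hYc : IsClosed Y := (Set.toFinite _).isClosed_biUnion fun d _ => B.isClosed_cell d
  have hcov : κ ⊆ X ∪ Y := by
    intro p hp
    obtain ⟨d, hd⟩ := mem_iUnion.1 (hcv hp)
    have hdm : d ∈ B.hits κ := ⟨p, hd, hp⟩
    by_cases hl : Link B.H (B.hits κ) c d
    · left
      exact mem_biUnion (show d ∈ {d | Link B.H (B.hits κ) c d} from hl) hd
    · right
      exact mem_biUnion (show d ∈ {d | d ∈ B.hits κ ∧ ¬ Link B.H (B.hits κ) c d} from ⟨hdm, hl⟩) hd
  obtain ⟨z, hz, hzκ⟩ := id hc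
  obtain ⟨w, hw, hwκ⟩ := id hd
  obtain ⟨p, -, hpX, hpY⟩ := isPreconnected_closed_iff.1 hκ X Y hXc hYc hcov
    ⟨z, hzκ, mem_biUnion (show c ∈ {d | Link B.H (B.hits κ) c d} from B.link_refl _ c) hz⟩
    ⟨w, hwκ, mem_biUnion (show d ∈ {d | d ∈ B.hits κ ∧ ¬ Link B.H (B.hits κ) c d} from ⟨hd, hcon⟩) hw⟩
  obtain ⟨d, hd1, hpd⟩ := mem_iUnion₂.1 hpX
  obtain ⟨d', hd', hpd'⟩ := mem_iUnion₂.1 hpY
  exact hd'.2 (B.link_tail hd1 (B.link_mem hd1 hc) hd'.1 ⟨p, hpd, hpd'⟩)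

/-- the union of a linked set of cells contains a continuum through the two end cells -/
theorem exists_union (B : Board e N k A) {M : Set B.C} {c d : B.C} (hc : c ∈ M) (h : Link B.H M c d) :
    ∃ K : NonemptyCompacts Z, IsConnected (K : Set Z) ∧ B.cell c ⊆ K ∧ B.cell d ⊆ K ∧
      ∀ w ∈ (K : Set Z), ∃ c' ∈ M, w ∈ B.cell c' := by
  set T : Set B.C := {d | Link B.H M c d} with hT
  have hTM : T ⊆ M := fun d hd => B.link_mem hd hc
  have hcomp : IsCompact (⋃ d ∈ T, B.cell d) := (Set.toFinite T).isCompact_biUnion fun d _ => B.isCompact d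
  have hcT : c ∈ T := B.link_refl M c
  have hne : (⋃ d ∈ T, B.cell d).Nonempty := by
    obtain ⟨p, hp⟩ := (B.conn c).nonempty
    exact ⟨p, mem_biUnion hcT hp⟩
  have hstep : ∀ j, Link B.H M c j →
      Relation.ReflTransGen (fun i j => (B.cell i ∩ B.cell j).Nonempty ∧ i ∈ T) c j := by
    intro j hj
    induction hj with
    | refl => exact .refl
    | @tail a b h1 h2 ih =>
      refine ih.tail ⟨?_, h1⟩
      by_cases hab : a = b
      · subst hab
        obtain ⟨p, hp⟩ := (B.conn a).nonempty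
        exact ⟨p, hp, hp⟩
      · exact (B.adj_iff a b hab).1 h2.1
  have hstep' : ∀ i, Link B.H M c i →
      Relation.ReflTransGen (fun i j => (B.cell i ∩ B.cell j).Nonempty ∧ i ∈ T) i c := by
    intro i hi
    induction hi with
    | refl => exact .refl
    | @tail a b h1 h2 ih =>
      refine Relation.ReflTransGen.head ⟨?_, ?_⟩ ih
      · by_cases hab : a = b
        · subst hab
          obtain ⟨p, hp⟩ := (B.conn a).nonempty
          exact ⟨p, hp, hp⟩
        · rw [inter_comm]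
          exact (B.adj_iff a b hab).1 h2.1
      · exact Relation.ReflTransGen.tail h1 h2
  have hconn : IsPreconnected (⋃ d ∈ T, B.cell d) := by
    refine IsPreconnected.biUnion_of_reflTransGen (fun i _ => (B.conn i).isPreconnected) ?_
    intro i hi j hj
    exact (hstep' i hi).trans (hstep j hj)
  refine ⟨⟨⟨⋃ d ∈ T, B.cell d, hcomp⟩, hne⟩, ⟨hne, hconn⟩, ?_, ?_, ?_⟩
  · intro p hp
    exact mem_biUnion hcT hp
  · intro p hp
    exact mem_biUnion (show d ∈ T from h) hp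
  · intro w hw
    obtain ⟨d', hd', hw'⟩ := mem_iUnion₂.1 hw
    exact ⟨d', hTM hd', hw'⟩

end Board

end P198C
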