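import Vale.Agent.P198.CH.Weights
import Vale.Agent.P198.SQ.Ring

/-!
# P198 block CH: equicontinuity of the square tilings
-/

open Metric Set TopologicalSpace P198Q P198S MeasureTheory
open scoped Classical ENNReal

namespace P198C

section comb

variable {C : Type*} [Fintype C] {H : HexRect C} {W h : ℝ} {ρ x y : C → ℝ}

theorem x_le_W (t : Tiling H W h ρ x y) (c : C) : x c ≤ W := by
  obtain ⟨s, -, hs, -⟩ := H.swap.conn_univ
  have h0 : x s ≤ W := by rw [t.left s hs]; exact t.Wpos.le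
  have hr := H.connected s c
  induction hr with
  | refl => exact h0
  | @tail a b _ hab ih =>
    have h1 := t.adj_x a b hab
    rcases (t.nonneg a).lt_or_eq with h2 | h2
    · have := t.x_le a h2
      linarith
    · linarith

theorem V_link (t : Tiling H W h ρ x y) {b : ℝ} (h0 : 0 < b) (h1 : b < W) (hb : Tiling.Gen ρ x b)
    {c d : C} (hc : c ∈ Tiling.V ρ x b) (hd : d ∈ Tiling.V ρ x b) : Link H (Tiling.V ρ x b) c d := by
  rcases le_total (y c) (y d) with hy | hy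
  · exact rtg_mono (fun u v huv => ⟨huv.1, huv.2.1.1, huv.2.2.1⟩) (t.vline h0 h1 hb hc hd hy)
  · exact Link.symm (rtg_mono (fun u v huv => ⟨huv.1, huv.2.1.1, huv.2.2.1⟩) (t.vline h0 h1 hb hd hc hy))

/-- a linked set whose `x`-coordinates pass the generic level `b` meets the line. -/
theorem link_cross (t : Tiling H W h ρ x y) {M : Set C} {c d : C} (hl : Link H M c d) {b : ℝ}
    (hb : Tiling.Gen ρ x b) (hc : x c + ρ c < b) (hd : b < x d) : ∃ c₀ ∈ M, c₀ ∈ Tiling.V ρ x b := by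
  have key : (∃ c₀ ∈ M, c₀ ∈ Tiling.V ρ x b) ∨ x d + ρ d < b := by
    clear hd
    induction hl with
    | refl => exact Or.inr hc
    | @tail u v _ huv ih =>
      rcases ih with h1 | h1
      · exact Or.inl h1
      · have h2 := t.adj_x u v huv.1
        rcases lt_or_ge (x v + ρ v) b with h3 | h3
        · exact Or.inr h3
        · left
          exact ⟨v, huv.2.2, by linarith, lt_of_le_of_ne h3 (hb v).2⟩
  rcases key with h1 | h1
  · exact h1
  · exfalso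
    have := t.nonneg d
    linarith

/-- integration over vertical lines. -/
theorem line_bound (t : Tiling H W h ρ x y) (T : C → ℝ) (hT : ∀ c, 0 ≤ T c) {b₁ b₂ : ℝ}
    (hb : b₁ ≤ b₂)
    (hV : ∀ b, b₁ < b → b < b₂ → Tiling.Gen ρ x b → 1 ≤ ∑ c with c ∈ Tiling.V ρ x b, T c) :
    (b₂ - b₁) ^ 2 ≤ (∑ c, T c ^ 2) * (W * h) := by
  rw [← t.area]
  refine length_area Finset.univ T ρ hT t.nonneg (fun c => Ioo (x c) (x c + ρ c))
    (fun c => measurableSet_Ioo) (fun c => by rw [Real.volume_Ioo]; simp) b₁ b₂ hb ?_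
  filter_upwards [Tiling.ae_gen ρ x] with b hbg hmem
  exact hV b hmem.1 hmem.2 hbg

/-- small energy weight charging all lines through `M`: small variation of `x` on `M`. -/
theorem small_x (t : Tiling H W h ρ x y) (T : C → ℝ) (hT : ∀ c, 0 ≤ T c) {η : ℝ} (hη : 0 ≤ η)
    (hE : (∑ c, T c ^ 2) * (W * h) ≤ η ^ 2) {M : Set C}
    (hV : ∀ b, 0 < b → b < W → Tiling.Gen ρ x b → ∀ c₀ ∈ M, c₀ ∈ Tiling.V ρ x b →
      1 ≤ ∑ c with c ∈ Tiling.V ρ x b, T c) :
    (∀ c ∈ M, ρ c ≤ η) ∧ ∀ c d, Link H M c d → x d ≤ x c + ρ c + η := by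
  constructor
  · intro c hc
    rcases (t.nonneg c).lt_or_eq with h0 | h0
    · have h1 := line_bound t T hT (b₁ := x c) (b₂ := x c + ρ c) (by linarith) (by
        intro b hb1 hb2 hg
        exact hV b ((t.x_nonneg c).trans_lt hb1) (hb2.trans_le (t.x_le c h0)) hg c hc ⟨hb1, hb2⟩)
      have h2 : ρ c ^ 2 ≤ η ^ 2 := by
        have h3 : x c + ρ c - x c = ρ c := by ring
        rw [h3] at h1
        linarith
      exact le_of_sq_le_sq h2 hη
    · rw [← h0]; exact hη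
  · intro c d hl
    rcases le_total (x d) (x c + ρ c) with h0 | h0
    · linarith
    · have h1 := line_bound t T hT (b₁ := x c + ρ c) (b₂ := x d) h0 (by
        intro b hb1 hb2 hg
        obtain ⟨c₀, hc₀, hc₀V⟩ := link_cross t hl hg hb1 hb2
        have h2 := t.x_nonneg c
        have h3 := t.nonneg c
        exact hV b (by linarith) (hb2.trans_le (x_le_W t d)) hg c₀ hc₀ hc₀V)
      have h2 : (x d - (x c + ρ c)) ^ 2 ≤ η ^ 2 := h1.trans hE
      have h3 := le_of_sq_le_sq h2 hη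
      linarith

end comb

section board

variable {Z : Type*} [MetricSpace Z] {e : ℝ × ℝ → Z} {N : ℕ → Finset Z} {k : ℕ} {A : ℝ}

/-- opposite sides of the board are `δ`-far. -/
def Far (B : Board e N k A) (δ : ℝ) : Prop :=
  (∀ c ∈ B.H.L, ∀ c' ∈ B.H.R, ∃ p ∈ B.cell c, ∃ p' ∈ B.cell c', δ ≤ dist p p') ∧
  (∀ c ∈ B.H.S, ∀ c' ∈ B.H.T, ∃ p ∈ B.cell c, ∃ p' ∈ B.cell c', δ ≤ dist p p')

theorem exists_dist_compact {K K' : Set Z} (hK : IsCompact K) (hK' : IsCompact K') (hd : Disjoint K K') :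
    ∃ δ > 0, ∀ p ∈ K, ∀ p' ∈ K', δ ≤ dist p p' := by
  rcases (K ×ˢ K').eq_empty_or_nonempty with h | h
  · refine ⟨1, one_pos, fun p hp p' hp' => ?_⟩
    have : (p, p') ∈ K ×ˢ K' := ⟨hp, hp'⟩
    rw [h] at this
    exact absurd this (notMem_empty _)
  · obtain ⟨⟨a, b⟩, hab, hmin⟩ := (hK.prod hK').exists_isMinOn h
      (f := fun q : Z × Z => dist q.1 q.2) (by fun_prop)
    refine ⟨dist a b, dist_pos.2 ?_, fun p hp p' hp' => hmin (show (p, p') ∈ K ×ˢ K' from ⟨hp, hp'⟩)⟩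
    rintro rfl
    exact Set.disjoint_left.1 hd hab.1 hab.2

theorem exists_far (he : Topology.IsOpenEmbedding e) (A : ℝ) :
    ∃ δ > 0, ∃ k₁ : ℕ, ∀ k, k₁ ≤ k → ∀ (B : Board e N k A), Far B δ := by
  have hc := he.continuous
  have hi := he.injective
  obtain ⟨δ₁, hδ₁, h₁⟩ := exists_dist_compact (Z := Z)
    (K := e '' (Icc 0 1 ×ˢ {0})) (K' := e '' (Icc 0 1 ×ˢ {1}))
    ((isCompact_Icc.prod isCompact_singleton).image hc)
    ((isCompact_Icc.prod isCompact_singleton).image hc) (by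
      rw [Set.disjoint_left]
      rintro _ ⟨p, hp, rfl⟩ ⟨q, hq, hpq⟩
      have := hi hpq
      subst this
      have h1 := hp.2
      have h2 := hq.2
      rw [mem_singleton_iff] at h1 h2
      rw [h1] at h2
      norm_num at h2)
  obtain ⟨δ₂, hδ₂, h₂⟩ := exists_dist_compact (Z := Z)
    (K := e '' ({0} ×ˢ Icc 0 1)) (K' := e '' ({1} ×ˢ Icc 0 1))
    ((isCompact_singleton.prod isCompact_Icc).image hc)
    ((isCompact_singleton.prod isCompact_Icc).image hc) (by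
      rw [Set.disjoint_left]
      rintro _ ⟨p, hp, rfl⟩ ⟨q, hq, hpq⟩
      have := hi hpq
      subst this
      have h1 := hp.1
      have h2 := hq.1
      rw [mem_singleton_iff] at h1 h2
      rw [h1] at h2
      norm_num at h2)
  set δ := min δ₁ δ₂ with hδ
  have hδ0 : 0 < δ := lt_min hδ₁ hδ₂
  obtain ⟨k₁, hk₁⟩ := exists_sc_lt (show 0 < δ / (4 * (|A| + 1)) by positivity)
  rw [lt_div_iff₀ (by positivity)] at hk₁
  refine ⟨δ / 2, by positivity, k₁, fun k hk B => ?_⟩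
  have hAk : A * sc k ≤ δ / 4 := by
    have h3 := sc_anti hk
    have h4 := sc_pos k
    have h5 : A * sc k ≤ (|A| + 1) * sc k := by
      have := le_abs_self A
      nlinarith
    have h6 : (|A| + 1) * sc k ≤ (|A| + 1) * sc k₁ := by gcongr
    linarith
  constructor
  · intro c hc c' hc'
    obtain ⟨w, hw, z, hz, hzw⟩ := B.L_near c hc
    obtain ⟨w', hw', z', hz', hzw'⟩ := B.R_near c' hc'
    refine ⟨z, hz, z', hz', ?_⟩
    have h3 := h₁ w hw w' hw'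
    have h4 := min_le_left δ₁ δ₂
    have h5 := dist_triangle w z w'
    have h6 := dist_triangle z z' w'
    rw [dist_comm w z] at h5
    linarith
  · intro c hc c' hc'
    obtain ⟨w, hw, z, hz, hzw⟩ := B.S_near c hc
    obtain ⟨w', hw', z', hz', hzw'⟩ := B.T_near c' hc'
    refine ⟨z, hz, z', hz', ?_⟩
    have h3 := h₂ w hw w' hw'
    have h4 := min_le_right δ₁ δ₂
    have h5 := dist_triangle w z w'
    have h6 := dist_triangle z z' w'
    rw [dist_comm w z] at h5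
    linarith

/-- a generic vertical line through a cell near `v` is charged. -/
theorem V_charged (B : Board e N k A) {H' : HexRect B.C} (hadj : H'.adj = B.H.adj)
    {W h : ℝ} {ρ x y : B.C → ℝ} (t : Tiling H' W h ρ x y) {δ : ℝ} {i₀ i₁ : ℕ} (hi₀ : 2 * sc i₀ ≤ δ)
    (hfar : ∀ c ∈ H'.L, ∀ c' ∈ H'.R, ∃ p ∈ B.cell c, ∃ p' ∈ B.cell c', δ ≤ dist p p')
    {v : Z} {T : B.C → ℝ}
    (hadm : ∀ (M : Set B.C) (c d : B.C), c ∈ M → Link B.H M c d → (∃ p ∈ B.cell c, dist p v ≤ sc i₁) →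
        (∃ p ∈ B.cell d, sc i₀ ≤ dist p v) → 1 ≤ ∑ c with c ∈ M, T c)
    {b : ℝ} (h0 : 0 < b) (h1 : b < W) (hb : Tiling.Gen ρ x b) {c₀ : B.C} (hc₀ : c₀ ∈ Tiling.V ρ x b)
    (hp : ∃ p ∈ B.cell c₀, dist p v ≤ sc i₁) : 1 ≤ ∑ c with c ∈ Tiling.V ρ x b, T c := by
  obtain ⟨a, haV, haL, a', haV', haR, -⟩ := t.V_conn h0 h1 hb
  obtain ⟨p, hp1, p', hp2, hpp⟩ := hfar a haL a' haR
  have hlk : ∀ d ∈ Tiling.V ρ x b, Link B.H (Tiling.V ρ x b) c₀ d := by
    intro d hd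
    have := V_link t h0 h1 hb hc₀ hd
    unfold Link at this ⊢
    rwa [hadj] at this
  have h2 := dist_triangle p v p'
  rcases le_or_gt (sc i₀) (dist p v) with h3 | h3
  · exact hadm _ c₀ a hc₀ (hlk a haV) hp ⟨p, hp1, h3⟩
  · refine hadm _ c₀ a' hc₀ (hlk a' haV') hp ⟨p', hp2, ?_⟩
    rw [dist_comm v p'] at h2
    linarith

/-- **Equicontinuity** of the tilings. -/
theorem equi (e : ℝ × ℝ → Z) (hN : IsNet N) {D : ℝ → ℝ} {Q : ℕ} (hD : Doubling Z D Q)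
    (hA : 0 ≤ A) {Cc : ℝ} (hc : CrossBd N Cc) (Wm : ℝ) {ε δ : ℝ} (hε : 0 < ε) (hδ : 0 < δ) :
    ∃ i₁ k₁ : ℕ, ∀ k, k₁ ≤ k → ∀ (B : Board e N k A), Far B δ →
      ∀ (W : ℝ) (ρ x y : B.C → ℝ), Tiling B.H W 1 ρ x y → W ≤ Wm →
      (∀ c, ρ c ≤ ε) ∧ ∀ (v : Z) (M : Set B.C), (∀ c ∈ M, ∃ p ∈ B.cell c, dist p v ≤ sc i₁) →
        ∀ c d, c ∈ M → Link B.H M c d → |x c - x d| ≤ ε ∧ |y c - y d| ≤ ε := by
  obtain ⟨i₀, hi₀⟩ := exists_sc_lt (show 0 < δ / 2 by positivity)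
  set Wm' := max Wm 1 with hWm'
  have hWm0 : 0 < Wm' := lt_of_lt_of_le one_pos (le_max_right _ _)
  obtain ⟨i₁, k₁, -, hk⟩ := exists_small e hN hD hA hc (ε := (ε / 2) ^ 2 / Wm') (by positivity) i₀
  refine ⟨i₁, k₁, ?_⟩
  intro k hkk B hfar W ρ x y t hW
  have hWW : W ≤ Wm' := hW.trans (le_max_left _ _)
  have hen : ∀ T : B.C → ℝ, ∑ c, T c ^ 2 ≤ (ε / 2) ^ 2 / Wm' →
      (∑ c, T c ^ 2) * (W * 1) ≤ (ε / 2) ^ 2 ∧ (∑ c, T c ^ 2) * (1 * W) ≤ (ε / 2) ^ 2 := by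
    intro T hT
    have h1 : (∑ c, T c ^ 2) * W ≤ (ε / 2) ^ 2 := by
      calc (∑ c, T c ^ 2) * W ≤ (ε / 2) ^ 2 / Wm' * Wm' := by
            have h2 : 0 ≤ ∑ c, T c ^ 2 := Finset.sum_nonneg fun _ _ => sq_nonneg _
            have h3 := t.Wpos
            gcongr
        _ = _ := by field_simp
    constructor
    · rwa [mul_one]
    · rwa [one_mul]
  have hρ : ∀ c, ρ c ≤ ε / 2 := by
    intro c
    obtain ⟨p, hp⟩ := (B.conn c).nonempty
    obtain ⟨T, hT0, hTE, hadm⟩ := hk k hkk B p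
    refine (small_x t T hT0 (by positivity) (hen T hTE).1 (M := {c}) ?_).1 c rfl
    intro b h0 h1 hg c₀ hc₀ hc₀V
    rw [mem_singleton_iff] at hc₀
    subst hc₀
    exact V_charged B rfl t (by linarith) hfar.1 hadm h0 h1 hg hc₀V
      ⟨p, hp, by rw [dist_self]; exact (sc_pos _).le⟩
  refine ⟨fun c => (hρ c).trans (by linarith), ?_⟩
  intro v M hM c d hcM hl
  obtain ⟨T, hT0, hTE, hadm⟩ := hk k hkk B v
  have hx := (small_x t T hT0 (show 0 ≤ ε / 2 by positivity) (hen T hTE).1 (M := M)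
    (fun b h0 h1 hg c₀ hc₀ hc₀V =>
      V_charged B rfl t (by linarith) hfar.1 hadm h0 h1 hg hc₀V (hM c₀ hc₀))).2
  have hy := (small_x t.swap T hT0 (show 0 ≤ ε / 2 by positivity) (hen T hTE).2 (M := M)
    (fun b h0 h1 hg c₀ hc₀ hc₀V =>
      V_charged B (H' := B.H.swap) rfl t.swap (δ := δ) (by linarith) hfar.2 hadm h0 h1 hg hc₀V
        (hM c₀ hc₀))).2
  have hx1 := hx c d hl
  have hx2 := hx d c hl.symm
  have hy1 := hy c d hl
  have hy2 := hy d c (Link.symm (H := B.H) hl)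
  have h3 := hρ c
  have h4 := hρ d
  constructor <;> rw [abs_le] <;> constructor <;> linarith

/-- weights charging linked sets of diameter at least `δ`. -/
theorem exists_diam_weight (hN : IsNet N) {D : ℝ → ℝ} {Q : ℕ} (hD : Doubling Z D Q) (hA : 0 ≤ A)
    {δ Cδ : ℝ} (hmod : md (N k) (hit k) (contDiam Z δ) ≤ Cδ) (B : Board e N k A) :
    ∃ T : B.C → ℝ, (∀ c, 0 ≤ T c) ∧ ∑ c, T c ^ 2 ≤ D (A + 1) ^ 2 * Cδ ∧
      ∀ (M : Set B.C) (c d : B.C), c ∈ M → Link B.H M c d →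
        (∃ p ∈ B.cell c, ∃ p' ∈ B.cell d, δ ≤ dist p p') → 1 ≤ ∑ c with c ∈ M, T c := by
  obtain ⟨τ, hτ, hτE⟩ := exists_adm (N k) (hit k) (contDiam Z δ) (by
    intro K _
    obtain ⟨p, hp⟩ := K.nonempty
    obtain ⟨w, hw, hwp⟩ := hN.cov k p
    exact ⟨w, hw, p, mem_closedBall.2 hwp, hp⟩)
  refine ⟨tw B τ, tw_nonneg B hτ.1, tw_energy hN hD hA B (hτE.le.trans hmod), ?_⟩
  rintro M c d hcM hl ⟨p, hp, p', hp', hpp⟩
  obtain ⟨K, hKc, hcK, hdK, hKM⟩ := B.exists_union hcM hl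
  refine le_trans ?_ (tw_adm B hτ.1 hKM)
  exact hτ.2 K ⟨hKc, hpp.trans (dist_le_diam_of_mem K.isCompact.isBounded (hcK hp) (hdK hp'))⟩

theorem W_bounds (hN : IsNet N) {D : ℝ → ℝ} {Q : ℕ} (hD : Doubling Z D Q) (hA : 0 ≤ A)
    {δ Cδ : ℝ} (hmod : md (N k) (hit k) (contDiam Z δ) ≤ Cδ) (B : Board e N k A) (hfar : Far B δ)
    {W : ℝ} {ρ x y : B.C → ℝ} (t : Tiling B.H W 1 ρ x y) :
    W ≤ D (A + 1) ^ 2 * Cδ ∧ 1 ≤ D (A + 1) ^ 2 * Cδ * W := by
  obtain ⟨T, hT0, hTE, hadm⟩ := exists_diam_weight hN hD hA hmod B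
  have hW := t.Wpos
  constructor
  · have h1 := line_bound t T hT0 (b₁ := 0) (b₂ := W) t.Wpos.le (by
      intro b h0 h1 hg
      obtain ⟨a, haV, haL, a', haV', haR, hl⟩ := t.V_conn h0 h1 hg
      exact hadm _ a a' haV hl (hfar.1 a haL a' haR))
    have h2 : W ^ 2 ≤ D (A + 1) ^ 2 * Cδ * W := by
      calc W ^ 2 = (W - 0) ^ 2 := by ring
        _ ≤ _ := h1
        _ = (∑ c, T c ^ 2) * W := by ring
        _ ≤ _ := by gcongr
    nlinarith
  · have h1 := line_bound t.swap T hT0 (b₁ := 0) (b₂ := 1) one_pos.le (by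
      intro b h0 h1 hg
      obtain ⟨a, haV, haL, a', haV', haR, hl⟩ := t.swap.V_conn h0 h1 hg
      exact hadm _ a a' haV hl (hfar.2 a haL a' haR))
    calc (1 : ℝ) = (1 - 0) ^ 2 := by ring
      _ ≤ _ := h1
      _ = (∑ c, T c ^ 2) * W := by ring
      _ ≤ _ := by gcongr

end board

end P198C
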