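import Vale.Agent.P198.CH.Equi
import Vale.Agent.P198.LLC.LLC

/-!
# P198 block CH: the limit of the square tilings
-/

open Metric Set TopologicalSpace P198Q P198S MeasureTheory Filter
open scoped Classical ENNReal Topology

namespace P198C

variable {Z : Type*} [MetricSpace Z]

/-- a sequence of boards with square tilings -/
structure Sys (e : ℝ × ℝ → Z) (N : ℕ → Finset Z) (A E₀ δ₀ : ℝ) where
  kk : ℕ → ℕ
  kk_ge : ∀ n, n ≤ kk n
  B : ∀ n, Board e N (kk n) A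
  W : ℕ → ℝ
  ρ : ∀ n, (B n).C → ℝ
  x : ∀ n, (B n).C → ℝ
  y : ∀ n, (B n).C → ℝ
  t : ∀ n, Tiling (B n).H (W n) 1 (ρ n) (x n) (y n)
  W_le : ∀ n, W n ≤ E₀
  le_W : ∀ n, 1 ≤ E₀ * W n
  far : ∀ n, Far (B n) δ₀
  cov : ∀ δ : ℝ, 0 < δ → ∃ n₁, ∀ n, n₁ ≤ n → e '' (Icc δ (1 - δ) ×ˢ Icc δ (1 - δ)) ⊆ ⋃ c, (B n).cell c

namespace Sys

variable {e : ℝ × ℝ → Z} {N : ℕ → Finset Z} {A E₀ δ₀ : ℝ} (S : Sys e N A E₀ δ₀)

theorem nonempty_C (n : ℕ) : Nonempty (S.B n).C := by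
  obtain ⟨c, -⟩ := (S.B n).H.conn_univ
  exact ⟨c⟩

/-- a cell containing `z` (junk if there is none) -/
noncomputable def pick (n : ℕ) (z : Z) : (S.B n).C :=
  if h : ∃ c, z ∈ (S.B n).cell c then h.choose else (S.nonempty_C n).some

theorem pick_spec {n : ℕ} {z : Z} (h : ∃ c, z ∈ (S.B n).cell c) : z ∈ (S.B n).cell (S.pick n z) := by
  unfold pick
  rw [dif_pos h]
  exact h.choose_spec

/-- approximate chart -/
noncomputable def fn (n : ℕ) (z : Z) : ℝ × ℝ := (S.x n (S.pick n z), S.y n (S.pick n z))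

theorem fn_mem (n : ℕ) (z : Z) : S.fn n z ∈ Icc (0 : ℝ) (S.W n) ×ˢ Icc (0 : ℝ) 1 :=
  ⟨⟨(S.t n).x_nonneg _, x_le_W (S.t n) _⟩, (S.t n).y_nonneg _, x_le_W (S.t n).swap _⟩

theorem exists_lim (z : Z) : ∃ p : ℝ × ℝ, Tendsto (fun n => S.fn n z) (hyperfilter ℕ : Filter ℕ) (𝓝 p) := by
  have hK : IsCompact (Icc (0 : ℝ) E₀ ×ˢ Icc (0 : ℝ) 1) := isCompact_Icc.prod isCompact_Icc
  obtain ⟨p, -, hp⟩ := hK.ultrafilter_le_nhds ((hyperfilter ℕ).map fun n => S.fn n z) (by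
    rw [le_principal_iff, Ultrafilter.mem_coe, Ultrafilter.mem_map]
    refine univ_mem' (fun n => ?_)
    have := S.fn_mem n z
    exact ⟨⟨this.1.1, this.1.2.trans (S.W_le n)⟩, this.2⟩)
  exact ⟨p, hp⟩

/-- the limit chart -/
noncomputable def f (z : Z) : ℝ × ℝ := (S.exists_lim z).choose

theorem tendsto_f (z : Z) : Tendsto (fun n => S.fn n z) (hyperfilter ℕ : Filter ℕ) (𝓝 (S.f z)) :=
  (S.exists_lim z).choose_spec

theorem exists_Winf : ∃ w : ℝ, Tendsto S.W (hyperfilter ℕ : Filter ℕ) (𝓝 w) := by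
  have hK : IsCompact (Icc (0 : ℝ) E₀) := isCompact_Icc
  obtain ⟨p, -, hp⟩ := hK.ultrafilter_le_nhds ((hyperfilter ℕ).map S.W) (by
    rw [le_principal_iff, Ultrafilter.mem_coe, Ultrafilter.mem_map]
    exact univ_mem' (fun n => ⟨(S.t n).Wpos.le, S.W_le n⟩))
  exact ⟨p, hp⟩

/-- the limit width -/
noncomputable def Winf : ℝ := S.exists_Winf.choose

theorem tendsto_W : Tendsto S.W (hyperfilter ℕ : Filter ℕ) (𝓝 S.Winf) := S.exists_Winf.choose_spec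

theorem Winf_pos : 0 < S.Winf := by
  have h1 : Tendsto (fun n => E₀ * S.W n) (hyperfilter ℕ : Filter ℕ) (𝓝 (E₀ * S.Winf)) :=
    S.tendsto_W.const_mul E₀
  have h2 : 1 ≤ E₀ * S.Winf := ge_of_tendsto h1 (Filter.Eventually.of_forall S.le_W)
  have h3 : 0 ≤ S.Winf := ge_of_tendsto S.tendsto_W (Filter.Eventually.of_forall fun n => (S.t n).Wpos.le)
  rcases h3.lt_or_eq with h | h
  · exact h
  · rw [← h] at h2; norm_num at h2

theorem ev_of_atTop {p : ℕ → Prop} (h : ∀ᶠ n in atTop, p n) : ∀ᶠ n in (hyperfilter ℕ : Filter ℕ), p n :=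
  Nat.hyperfilter_le_atTop h

/-- data needed for the estimates -/
structure Hyp (N : ℕ → Finset Z) (D : ℝ → ℝ) (Q : ℕ) (A Cc : ℝ) : Prop where
  net : IsNet N
  dbl : Doubling Z D Q
  nonneg : 0 ≤ A
  cross : CrossBd N Cc

variable {D : ℝ → ℝ} {Q : ℕ} {Cc : ℝ} (hy : Hyp N D Q A Cc)
include hy

theorem equi' (hδ₀ : 0 < δ₀) {ε : ℝ} (hε : 0 < ε) : ∃ i₁ : ℕ, ∀ᶠ n in atTop,
    (∀ c, S.ρ n c ≤ ε) ∧ ∀ (v : Z) (M : Set (S.B n).C),
      (∀ c ∈ M, ∃ p ∈ (S.B n).cell c, dist p v ≤ sc i₁) →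
      ∀ c d, c ∈ M → Link (S.B n).H M c d → |S.x n c - S.x n d| ≤ ε ∧ |S.y n c - S.y n d| ≤ ε := by
  obtain ⟨i₁, k₁, h⟩ := equi e hy.net hy.dbl hy.nonneg hy.cross E₀ hε hδ₀
  refine ⟨i₁, ?_⟩
  filter_upwards [eventually_ge_atTop k₁] with n hn
  exact h (S.kk n) (hn.trans (S.kk_ge n)) (S.B n) (S.far n) (S.W n) (S.ρ n) (S.x n) (S.y n) (S.t n) (S.W_le n)

theorem osc (hδ₀ : 0 < δ₀) (he : Topology.IsOpenEmbedding e) {z : Z} (hz : z ∈ e '' (Ioo 0 1 ×ˢ Ioo 0 1))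
    {ε : ℝ} (hε : 0 < ε) : ∃ κ ∈ 𝓝 z, ∀ᶠ n in atTop, κ ⊆ (⋃ c, (S.B n).cell c) ∧
      ∀ c d, c ∈ (S.B n).hits κ → d ∈ (S.B n).hits κ →
        |S.x n c - S.x n d| ≤ ε ∧ |S.y n c - S.y n d| ≤ ε := by
  obtain ⟨i₁, hi₁⟩ := S.equi' hy hδ₀ hε
  obtain ⟨q, hq, rfl⟩ := hz
  obtain ⟨⟨h1, h2⟩, h3, h4⟩ := hq
  set δ := min (min q.1 (1 - q.1)) (min q.2 (1 - q.2)) / 2 with hδ
  have hδ0 : 0 < δ := by
    have : 0 < min (min q.1 (1 - q.1)) (min q.2 (1 - q.2)) :=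
      lt_min (lt_min h1 (by linarith)) (lt_min h3 (by linarith))
    positivity
  have hd1 : 2 * δ ≤ q.1 := by
    have := (min_le_left (min q.1 (1 - q.1)) (min q.2 (1 - q.2))).trans (min_le_left _ _)
    linarith
  have hd2 : 2 * δ ≤ 1 - q.1 := by
    have := (min_le_left (min q.1 (1 - q.1)) (min q.2 (1 - q.2))).trans (min_le_right _ _)
    linarith
  have hd3 : 2 * δ ≤ q.2 := by
    have := (min_le_right (min q.1 (1 - q.1)) (min q.2 (1 - q.2))).trans (min_le_left _ _)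
    linarith
  have hd4 : 2 * δ ≤ 1 - q.2 := by
    have := (min_le_right (min q.1 (1 - q.1)) (min q.2 (1 - q.2))).trans (min_le_right _ _)
    linarith
  have hcont : e ⁻¹' (closedBall (e q) (sc i₁)) ∈ 𝓝 q :=
    he.continuous.continuousAt.preimage_mem_nhds (closedBall_mem_nhds _ (sc_pos i₁))
  obtain ⟨r₁, hr₁, hr₁'⟩ := nhds_basis_closedBall.mem_iff.1 hcont
  set r := min r₁ δ with hr
  have hr0 : 0 < r := lt_min hr₁ hδ0
  have hsub : closedBall q r ⊆ Icc δ (1 - δ) ×ˢ Icc δ (1 - δ) := by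
    intro p hp
    rw [mem_closedBall, Prod.dist_eq, max_le_iff, Real.dist_eq, Real.dist_eq, abs_le, abs_le] at hp
    have := min_le_right r₁ δ
    refine ⟨⟨?_, ?_⟩, ?_, ?_⟩ <;> linarith [hp.1.1, hp.1.2, hp.2.1, hp.2.2]
  obtain ⟨n₁, hn₁⟩ := S.cov δ hδ0
  refine ⟨e '' closedBall q r, he.isOpenMap.image_mem_nhds (closedBall_mem_nhds _ hr0), ?_⟩
  filter_upwards [hi₁, eventually_ge_atTop n₁] with n hn hnn
  have hcv : e '' closedBall q r ⊆ ⋃ c, (S.B n).cell c := (image_mono hsub).trans (hn₁ n hnn)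
  refine ⟨hcv, fun c d hc hd => ?_⟩
  have hpre : IsPreconnected (e '' closedBall q r) :=
    ((convex_closedBall q r).isPreconnected).image _ he.continuous.continuousOn
  refine hn.2 (e q) _ ?_ c d hc ((S.B n).chain_cov _ hpre hcv hc hd)
  rintro c' ⟨p, hp, ⟨p', hp', rfl⟩⟩
  exact ⟨e p', hp, hr₁' (closedBall_subset_closedBall (min_le_left _ _) hp')⟩

/-- boundary estimate -/
theorem bdEst (hδ₀ : 0 < δ₀) (he : Topology.IsOpenEmbedding e) {ε : ℝ} (hε : 0 < ε) :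
    ∃ δ : ℝ, 0 < δ ∧ ∀ᶠ n in atTop, ∀ c, ∀ z ∈ (S.B n).cell c, z ∉ e '' (Icc δ (1 - δ) ×ˢ Icc δ (1 - δ)) →
      S.x n c ≤ ε ∨ S.W n - S.x n c ≤ ε ∨ S.y n c ≤ ε ∨ 1 - S.y n c ≤ ε := by
  obtain ⟨i₁, hi₁⟩ := S.equi' hy hδ₀ (show 0 < ε / 2 by positivity)
  have huc : UniformContinuousOn e (Icc 0 1 ×ˢ Icc 0 1) :=
    (isCompact_Icc.prod isCompact_Icc).uniformContinuousOn_of_continuous he.continuous.continuousOn
  obtain ⟨δ, hδ0, hδ⟩ := Metric.uniformContinuousOn_iff_le.1 huc (sc i₁) (sc_pos i₁)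
  refine ⟨δ, hδ0, ?_⟩
  filter_upwards [hi₁] with n hn c z hzc hz
  obtain ⟨q, hq, rfl⟩ := (S.B n).inner c hzc
  obtain ⟨⟨h1, h2⟩, h3, h4⟩ := id hq
  -- a side point near `q`
  obtain ⟨q', hq', hq'n, hqq⟩ : ∃ q' : ℝ × ℝ, q' ∈ Icc (0 : ℝ) 1 ×ˢ Icc (0 : ℝ) 1 ∧
      q' ∉ Ioo (0 : ℝ) 1 ×ˢ Ioo (0 : ℝ) 1 ∧ dist q q' ≤ δ := by
    have hnot : ¬ (q ∈ Icc δ (1 - δ) ×ˢ Icc δ (1 - δ)) := fun h => hz (mem_image_of_mem e h)
    have hcases : q.1 < δ ∨ 1 - δ < q.1 ∨ q.2 < δ ∨ 1 - δ < q.2 := by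
      by_contra hcon
      push Not at hcon
      exact hnot ⟨⟨hcon.1, hcon.2.1⟩, hcon.2.2.1, hcon.2.2.2⟩
    rcases hcases with h | h | h | h
    · refine ⟨(0, q.2), ⟨⟨le_rfl, zero_le_one⟩, h3.le, h4.le⟩, fun h' => lt_irrefl _ h'.1.1, ?_⟩
      rw [Prod.dist_eq, max_le_iff, Real.dist_eq, Real.dist_eq]
      constructor
      · rw [abs_le]; constructor <;> simp <;> linarith
      · simp [hδ0.le]
    · refine ⟨(1, q.2), ⟨⟨zero_le_one, le_rfl⟩, h3.le, h4.le⟩, fun h' => lt_irrefl _ h'.1.2, ?_⟩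
      rw [Prod.dist_eq, max_le_iff, Real.dist_eq, Real.dist_eq]
      constructor
      · rw [abs_le]; constructor <;> simp <;> linarith
      · simp [hδ0.le]
    · refine ⟨(q.1, 0), ⟨⟨h1.le, h2.le⟩, le_rfl, zero_le_one⟩, fun h' => lt_irrefl _ h'.2.1, ?_⟩
      rw [Prod.dist_eq, max_le_iff, Real.dist_eq, Real.dist_eq]
      constructor
      · simp [hδ0.le]
      · rw [abs_le]; constructor <;> simp <;> linarith
    · refine ⟨(q.1, 1), ⟨⟨h1.le, h2.le⟩, zero_le_one, le_rfl⟩, fun h' => lt_irrefl _ h'.2.2, ?_⟩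
      rw [Prod.dist_eq, max_le_iff, Real.dist_eq, Real.dist_eq]
      constructor
      · simp [hδ0.le]
      · rw [abs_le]; constructor <;> simp <;> linarith
  have hseg : segment ℝ q q' ⊆ Icc (0 : ℝ) 1 ×ˢ Icc (0 : ℝ) 1 :=
    ((convex_Icc 0 1).prod (convex_Icc 0 1)).segment_subset ⟨⟨h1.le, h2.le⟩, h3.le, h4.le⟩ hq'
  have hpre : IsPreconnected (e '' segment ℝ q q') :=
    ((convex_segment q q').isPreconnected).image _ he.continuous.continuousOn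
  have hsmall : ∀ p ∈ segment ℝ q q', dist (e p) (e q) ≤ sc i₁ := by
    intro p hp
    apply hδ p (hseg hp) q ⟨⟨h1.le, h2.le⟩, h3.le, h4.le⟩
    have h5 : segment ℝ q q' ⊆ closedBall q δ :=
      (convex_closedBall q δ).segment_subset (mem_closedBall_self hδ0.le)
        (by rw [mem_closedBall, dist_comm]; exact hqq)
    exact h5 hp
  rcases (S.B n).chain (e '' segment ℝ q q') hpre (mem_image_of_mem e (left_mem_segment ℝ q q')) hzc with
    ⟨d, hd, hl⟩ | hcv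
  · have hM : ∀ c' ∈ (S.B n).hits (e '' segment ℝ q q'), ∃ p ∈ (S.B n).cell c', dist p (e q) ≤ sc i₁ := by
      rintro c' ⟨p, hp, ⟨p', hp', rfl⟩⟩
      exact ⟨e p', hp, hsmall p' hp'⟩
    have hcM : c ∈ (S.B n).hits (e '' segment ℝ q q') :=
      ⟨e q, hzc, mem_image_of_mem e (left_mem_segment ℝ q q')⟩
    obtain ⟨hx, hy'⟩ := hn.2 (e q) _ hM c d hcM hl
    rw [abs_le] at hx hy'
    have hρ := hn.1 d
    rcases hd with ((hd | hd) | hd) | hd
    · right; right; left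
      have := (S.t n).bottom d hd
      linarith
    · right; right; right
      have := (S.t n).top d hd
      linarith
    · left
      have := (S.t n).left d hd
      linarith
    · right; left
      have := (S.t n).right d hd
      linarith
  · exfalso
    obtain ⟨d, hd, -⟩ := hcv (e q') (mem_image_of_mem e (right_mem_segment ℝ q q'))
    obtain ⟨q'', hq'', heq⟩ := (S.B n).inner d hd
    rw [he.injective heq] at hq''
    exact hq'n hq''

theorem tendsto_cells (hδ₀ : 0 < δ₀) (he : Topology.IsOpenEmbedding e) {z : Z}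
    (hz : z ∈ e '' (Ioo 0 1 ×ˢ Ioo 0 1)) (c : ∀ n, (S.B n).C) (zn : ℕ → Z)
    (hzn : ∀ n, zn n ∈ (S.B n).cell (c n)) (hlim : Tendsto zn (hyperfilter ℕ : Filter ℕ) (𝓝 z)) :
    Tendsto (fun n => (S.x n (c n), S.y n (c n))) (hyperfilter ℕ : Filter ℕ) (𝓝 (S.f z)) := by
  refine (S.tendsto_f z).congr_dist ?_
  rw [Metric.tendsto_nhds]
  intro ε hε
  obtain ⟨κ, hκ, hev⟩ := S.osc hy hδ₀ he hz (show 0 < ε / 2 by positivity)
  filter_upwards [hlim hκ, ev_of_atTop hev] with n h1 h2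
  have hzκ : z ∈ κ := mem_of_mem_nhds hκ
  have h3 := h2.2 (S.pick n z) (c n) ⟨z, S.pick_spec (mem_iUnion.1 (h2.1 hzκ)), hzκ⟩ ⟨zn n, hzn n, h1⟩
  rw [Real.dist_eq, sub_zero, abs_of_nonneg dist_nonneg, Prod.dist_eq]
  refine (max_le ?_ ?_).trans_lt (show ε / 2 < ε by linarith)
  · rw [Real.dist_eq]; exact h3.1
  · rw [Real.dist_eq]; exact h3.2

theorem f_close (hδ₀ : 0 < δ₀) (he : Topology.IsOpenEmbedding e) {z : Z}
    (hz : z ∈ e '' (Ioo 0 1 ×ˢ Ioo 0 1)) {ε : ℝ} (hε : 0 < ε) : ∃ κ ∈ 𝓝 z, ∀ w ∈ κ, dist (S.f w) (S.f z) ≤ ε := by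
  obtain ⟨κ, hκ, hev⟩ := S.osc hy hδ₀ he hz hε
  refine ⟨κ, hκ, fun w hw => ?_⟩
  have hzκ : z ∈ κ := mem_of_mem_nhds hκ
  refine le_of_tendsto ((S.tendsto_f w).dist (S.tendsto_f z)) ?_
  filter_upwards [ev_of_atTop hev] with n h2
  have h3 := h2.2 (S.pick n w) (S.pick n z) ⟨w, S.pick_spec (mem_iUnion.1 (h2.1 hw)), hw⟩
    ⟨z, S.pick_spec (mem_iUnion.1 (h2.1 hzκ)), hzκ⟩
  rw [Prod.dist_eq]
  refine max_le ?_ ?_
  · rw [Real.dist_eq]; exact h3.1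
  · rw [Real.dist_eq]; exact h3.2

theorem continuousOn_f (hδ₀ : 0 < δ₀) (he : Topology.IsOpenEmbedding e) :
    ContinuousOn S.f (e '' (Ioo 0 1 ×ˢ Ioo 0 1)) := by
  intro z hz
  apply ContinuousAt.continuousWithinAt
  rw [Metric.continuousAt_iff']
  intro ε hε
  obtain ⟨κ, hκ, h⟩ := S.f_close hy hδ₀ he hz (show 0 < ε / 2 by positivity)
  filter_upwards [hκ] with w hw
  exact (h w hw).trans_lt (by linarith)

omit hy in
theorem f_mem (z : Z) : S.f z ∈ Icc (0 : ℝ) S.Winf ×ˢ Icc (0 : ℝ) 1 := by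
  have h1 : Tendsto (fun n => (S.fn n z).1) (hyperfilter ℕ : Filter ℕ) (𝓝 (S.f z).1) :=
    (continuous_fst.tendsto _).comp (S.tendsto_f z)
  have h2 : Tendsto (fun n => (S.fn n z).2) (hyperfilter ℕ : Filter ℕ) (𝓝 (S.f z).2) :=
    (continuous_snd.tendsto _).comp (S.tendsto_f z)
  refine ⟨⟨?_, ?_⟩, ?_, ?_⟩
  · exact ge_of_tendsto h1 (Filter.Eventually.of_forall fun n => (S.fn_mem n z).1.1)
  · exact le_of_tendsto_of_tendsto h1 S.tendsto_W (Filter.Eventually.of_forall fun n => (S.fn_mem n z).1.2)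
  · exact ge_of_tendsto h2 (Filter.Eventually.of_forall fun n => (S.fn_mem n z).2.1)
  · exact le_of_tendsto h2 (Filter.Eventually.of_forall fun n => (S.fn_mem n z).2.2)

omit hy in
theorem covered {z : Z} (hz : z ∈ e '' (Ioo 0 1 ×ˢ Ioo 0 1)) :
    ∀ᶠ n in atTop, ∃ c, z ∈ (S.B n).cell c := by
  obtain ⟨q, ⟨⟨h1, h2⟩, h3, h4⟩, rfl⟩ := hz
  set δ := min (min q.1 (1 - q.1)) (min q.2 (1 - q.2)) with hδ
  have hδ0 : 0 < δ := lt_min (lt_min h1 (by linarith)) (lt_min h3 (by linarith))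
  obtain ⟨n₁, hn₁⟩ := S.cov δ hδ0
  filter_upwards [eventually_ge_atTop n₁] with n hn
  have : e q ∈ ⋃ c, (S.B n).cell c := by
    apply hn₁ n hn
    refine mem_image_of_mem e ⟨⟨?_, ?_⟩, ?_, ?_⟩
    · exact (min_le_left _ _).trans (min_le_left _ _)
    · have : δ ≤ 1 - q.1 := (min_le_left _ _).trans (min_le_right _ _)
      linarith
    · exact (min_le_right _ _).trans (min_le_left _ _)
    · have : δ ≤ 1 - q.2 := (min_le_right _ _).trans (min_le_right _ _)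
      linarith
  exact mem_iUnion.1 this

theorem prop (hδ₀ : 0 < δ₀) (he : Topology.IsOpenEmbedding e) {ε : ℝ} (hε : 0 < ε) :
    ∃ δ > 0, ∀ z ∈ e '' (Ioo 0 1 ×ˢ Ioo 0 1), z ∉ e '' (Icc δ (1 - δ) ×ˢ Icc δ (1 - δ)) →
      Metric.infDist (S.f z) (Ioo 0 S.Winf ×ˢ Ioo 0 1)ᶜ < ε := by
  obtain ⟨δ, hδ0, hev⟩ := S.bdEst hy hδ₀ he (show 0 < ε / 2 by positivity)
  refine ⟨δ, hδ0, fun z hz hzn => ?_⟩
  have h1 : Tendsto (fun n => (S.fn n z).1) (hyperfilter ℕ : Filter ℕ) (𝓝 (S.f z).1) :=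
    (continuous_fst.tendsto _).comp (S.tendsto_f z)
  have h2 : Tendsto (fun n => (S.fn n z).2) (hyperfilter ℕ : Filter ℕ) (𝓝 (S.f z).2) :=
    (continuous_snd.tendsto _).comp (S.tendsto_f z)
  have hall : ∀ᶠ n in (hyperfilter ℕ : Filter ℕ), (S.fn n z).1 ≤ ε / 2 ∨ S.W n - (S.fn n z).1 ≤ ε / 2 ∨
      (S.fn n z).2 ≤ ε / 2 ∨ 1 - (S.fn n z).2 ≤ ε / 2 := by
    filter_upwards [ev_of_atTop hev, ev_of_atTop (S.covered hz)] with n h3 h4
    exact h3 (S.pick n z) z (S.pick_spec h4) hzn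
  have hmem := S.f_mem z
  have key : ∃ w ∈ (Ioo 0 S.Winf ×ˢ Ioo 0 1 : Set (ℝ × ℝ))ᶜ, dist (S.f z) w ≤ ε / 2 := by
    rw [Ultrafilter.eventually_or, Ultrafilter.eventually_or, Ultrafilter.eventually_or] at hall
    rcases hall with h | h | h | h
    · refine ⟨(0, (S.f z).2), fun h' => lt_irrefl _ h'.1.1, ?_⟩
      have h5 : (S.f z).1 ≤ ε / 2 := le_of_tendsto h1 h
      rw [Prod.dist_eq]
      refine max_le ?_ ?_
      · rw [Real.dist_eq, sub_zero, abs_of_nonneg hmem.1.1]; exact h5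
      · rw [dist_self]; positivity
    · refine ⟨(S.Winf, (S.f z).2), fun h' => lt_irrefl _ h'.1.2, ?_⟩
      have h5 : S.Winf - (S.f z).1 ≤ ε / 2 := le_of_tendsto (S.tendsto_W.sub h1) h
      rw [Prod.dist_eq]
      refine max_le ?_ ?_
      · rw [Real.dist_eq, abs_le]
        have := hmem.1.2
        constructor <;> simp only <;> linarith
      · rw [dist_self]; positivity
    · refine ⟨((S.f z).1, 0), fun h' => lt_irrefl _ h'.2.1, ?_⟩
      have h5 : (S.f z).2 ≤ ε / 2 := le_of_tendsto h2 h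
      rw [Prod.dist_eq]
      refine max_le ?_ ?_
      · rw [dist_self]; positivity
      · rw [Real.dist_eq, sub_zero, abs_of_nonneg hmem.2.1]; exact h5
    · refine ⟨((S.f z).1, 1), fun h' => lt_irrefl _ h'.2.2, ?_⟩
      have h5 : 1 - (S.f z).2 ≤ ε / 2 := le_of_tendsto (h2.const_sub 1) h
      rw [Prod.dist_eq]
      refine max_le ?_ ?_
      · rw [dist_self]; positivity
      · rw [Real.dist_eq, abs_le]
        have := hmem.2.2
        constructor <;> simp only <;> linarith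
  obtain ⟨w, hw, hwd⟩ := key
  exact (Metric.infDist_le_dist_of_mem hw).trans_lt (by linarith)

theorem surj [CompactSpace Z] (hδ₀ : 0 < δ₀) (he : Topology.IsOpenEmbedding e) :
    Ioo 0 S.Winf ×ˢ Ioo 0 1 ⊆ S.f '' (e '' (Ioo 0 1 ×ˢ Ioo 0 1)) := by
  rintro p ⟨⟨hp1, hp2⟩, hp3, hp4⟩
  set m := min (min p.1 (S.Winf - p.1)) (min p.2 (1 - p.2)) / 4 with hm
  have hm0 : 0 < m := by
    have : 0 < min (min p.1 (S.Winf - p.1)) (min p.2 (1 - p.2)) :=
      lt_min (lt_min hp1 (by linarith)) (lt_min hp3 (by linarith))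
    positivity
  have hd1 : 4 * m ≤ p.1 := by
    have := (min_le_left (min p.1 (S.Winf - p.1)) (min p.2 (1 - p.2))).trans (min_le_left _ _)
    linarith
  have hd2 : 4 * m ≤ S.Winf - p.1 := by
    have := (min_le_left (min p.1 (S.Winf - p.1)) (min p.2 (1 - p.2))).trans (min_le_right _ _)
    linarith
  have hd3 : 4 * m ≤ p.2 := by
    have := (min_le_right (min p.1 (S.Winf - p.1)) (min p.2 (1 - p.2))).trans (min_le_left _ _)
    linarith
  have hd4 : 4 * m ≤ 1 - p.2 := by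
    have := (min_le_right (min p.1 (S.Winf - p.1)) (min p.2 (1 - p.2))).trans (min_le_right _ _)
    linarith
  obtain ⟨δ, hδ0, hev⟩ := S.bdEst hy hδ₀ he hm0
  have hex : ∀ n, ∃ c : (S.B n).C, p.1 ≤ S.W n → p ∈ sq (S.ρ n) (S.x n) (S.y n) c := by
    intro n
    by_cases hn : p.1 ≤ S.W n
    · obtain ⟨c, hc⟩ := (S.t n).cover p.1 p.2 hp1.le hn hp3.le hp4.le
      exact ⟨c, fun _ => hc⟩
    · exact ⟨(S.nonempty_C n).some, fun h => absurd h hn⟩
  choose c hc using hex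
  have hex2 : ∀ n, ∃ z, z ∈ (S.B n).cell (c n) := fun n => ((S.B n).conn (c n)).nonempty
  choose zn hzn using hex2
  have hWev : ∀ᶠ n in (hyperfilter ℕ : Filter ℕ), S.Winf - m < S.W n :=
    S.tendsto_W.eventually (lt_mem_nhds (by linarith))
  have hρ : ∀ ε : ℝ, 0 < ε → ∀ᶠ n in (hyperfilter ℕ : Filter ℕ), ∀ c, S.ρ n c ≤ ε := by
    intro ε hε
    obtain ⟨i₁, h⟩ := S.equi' hy hδ₀ hε
    filter_upwards [ev_of_atTop h] with n hn
    exact hn.1
  have hK : IsCompact (e '' (Icc δ (1 - δ) ×ˢ Icc δ (1 - δ))) :=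
    (isCompact_Icc.prod isCompact_Icc).image he.continuous
  have hin : ∀ᶠ n in (hyperfilter ℕ : Filter ℕ), zn n ∈ e '' (Icc δ (1 - δ) ×ˢ Icc δ (1 - δ)) := by
    filter_upwards [hWev, hρ m hm0, ev_of_atTop hev] with n h1 h2 h3
    by_contra hcon
    have h4 := hc n (by linarith)
    rw [mem_sq] at h4
    have h5 := h2 (c n)
    rcases h3 (c n) (zn n) (hzn n) hcon with h | h | h | h
    · linarith [h4.1.2]
    · linarith [h4.1.1]
    · linarith [h4.2.2]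
    · linarith [h4.2.1]
  obtain ⟨z, hz, hlim⟩ := hK.ultrafilter_le_nhds ((hyperfilter ℕ).map zn) (by
    rw [le_principal_iff, Ultrafilter.mem_coe, Ultrafilter.mem_map]
    exact hin)
  have hzo : z ∈ e '' (Ioo 0 1 ×ˢ Ioo 0 1) := by
    obtain ⟨q, hq, rfl⟩ := hz
    exact mem_image_of_mem e ⟨⟨by linarith [hq.1.1], by linarith [hq.1.2]⟩,
      by linarith [hq.2.1], by linarith [hq.2.2]⟩
  refine ⟨z, hzo, ?_⟩
  have h1 := S.tendsto_cells hy hδ₀ he hzo c zn hzn hlim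
  have h2 : Tendsto (fun n => (S.x n (c n), S.y n (c n))) (hyperfilter ℕ : Filter ℕ) (𝓝 p) := by
    rw [Metric.tendsto_nhds]
    intro ε hε
    filter_upwards [hWev, hρ (ε / 2) (by positivity)] with n h3 h4
    have h5 := hc n (by linarith)
    rw [mem_sq] at h5
    have h6 := h4 (c n)
    rw [Prod.dist_eq]
    refine (max_le ?_ ?_).trans_lt (show ε / 2 < ε by linarith)
    · rw [Real.dist_eq, abs_le]; constructor <;> simp only <;> linarith [h5.1.1, h5.1.2]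
    · rw [Real.dist_eq, abs_le]; constructor <;> simp only <;> linarith [h5.2.1, h5.2.2]
  exact tendsto_nhds_unique h1 h2

end Sys

end P198C
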