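import Mathlib

/-!
# P198 block CH (local chart): topology of the limit map

`weakChart_core`: a continuous map of the open unit square (embedded in `Z`) onto an open
rectangle, proper over the rectangle and weakly quasisymmetric there, is injective and open on the
preimage of the rectangle.
-/

open Metric Set TopologicalSpace

namespace P198C

namespace Topo

variable {Z : Type*} [MetricSpace Z] {e : ℝ × ℝ → Z} {f : Z → ℝ × ℝ} {W : ℝ}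

theorem isOpen_rect : IsOpen (Ioo (0:ℝ) W ×ˢ Ioo (0:ℝ) 1) := isOpen_Ioo.prod isOpen_Ioo

theorem compl_rect_nonempty : ((Ioo (0:ℝ) W ×ˢ Ioo (0:ℝ) 1)ᶜ).Nonempty :=
  ⟨(0, 0), fun h => lt_irrefl _ h.1.1⟩

theorem infDist_pos {p : ℝ × ℝ} (hp : p ∈ Ioo (0:ℝ) W ×ˢ Ioo (0:ℝ) 1) :
    0 < infDist p (Ioo (0:ℝ) W ×ˢ Ioo (0:ℝ) 1)ᶜ := by
  have h := (isOpen_rect (W := W)).isClosed_compl
  rw [← h.notMem_iff_infDist_pos compl_rect_nonempty]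
  exact fun h => h hp

theorem isCompact_fibre (he : Topology.IsOpenEmbedding e)
    (hcont : ContinuousOn f (e '' (Ioo 0 1 ×ˢ Ioo 0 1)))
    (hprop : ∀ ε > 0, ∃ δ > 0, ∀ z ∈ e '' (Ioo 0 1 ×ˢ Ioo 0 1),
      z ∉ e '' (Icc δ (1-δ) ×ˢ Icc δ (1-δ)) →
        infDist (f z) (Ioo 0 W ×ˢ Ioo 0 1)ᶜ < ε)
    {K : Set (ℝ × ℝ)} (hK : IsCompact K) (hKR : K ⊆ Ioo 0 W ×ˢ Ioo 0 1) :
    IsCompact (e '' (Ioo 0 1 ×ˢ Ioo 0 1) ∩ f ⁻¹' K) := by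
  -- the distance from K to the complement of the rectangle
  obtain ⟨ε, hε, hKε⟩ : ∃ ε > 0, ∀ x ∈ K, ε ≤ infDist x (Ioo (0:ℝ) W ×ˢ Ioo (0:ℝ) 1)ᶜ := by
    rcases K.eq_empty_or_nonempty with rfl | hne
    · exact ⟨1, one_pos, fun x hx => hx.elim⟩
    · obtain ⟨x₀, hx₀, hmin⟩ := hK.exists_isMinOn hne
        (continuous_infDist_pt ((Ioo (0:ℝ) W ×ˢ Ioo (0:ℝ) 1)ᶜ)).continuousOn
      exact ⟨_, infDist_pos (hKR hx₀), fun x hx => hmin hx⟩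
  obtain ⟨δ, hδ, hδ'⟩ := hprop ε hε
  have hsub : Icc δ (1-δ) ×ˢ Icc δ (1-δ) ⊆ Ioo (0:ℝ) 1 ×ˢ Ioo (0:ℝ) 1 := by
    rintro ⟨a, b⟩ ⟨⟨h1, h2⟩, h3, h4⟩
    exact ⟨⟨by linarith, by linarith⟩, ⟨by linarith, by linarith⟩⟩
  have hC : IsCompact (e '' (Icc δ (1-δ) ×ˢ Icc δ (1-δ))) :=
    (isCompact_Icc.prod isCompact_Icc).image he.continuous
  have heq : e '' (Ioo 0 1 ×ˢ Ioo 0 1) ∩ f ⁻¹' K
      = e '' (Icc δ (1-δ) ×ˢ Icc δ (1-δ)) ∩ f ⁻¹' K := by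
    apply Subset.antisymm
    · rintro z ⟨hz, hzK⟩
      refine ⟨?_, hzK⟩
      by_contra hcon
      exact absurd (hδ' z hz hcon) (not_lt.2 (hKε _ hzK))
    · rintro z ⟨hz, hzK⟩
      exact ⟨image_mono hsub hz, hzK⟩
  rw [heq]
  exact ((hcont.mono (image_mono hsub)).preimage_isClosed_of_isClosed hC.isClosed
    hK.isClosed) |> fun h => hC.of_isClosed_subset h inter_subset_left

theorem injOn (he : Topology.IsOpenEmbedding e) (hW : 0 < W)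
    (hcont : ContinuousOn f (e '' (Ioo 0 1 ×ˢ Ioo 0 1)))
    (hsurj : Ioo 0 W ×ˢ Ioo 0 1 ⊆ f '' (e '' (Ioo 0 1 ×ˢ Ioo 0 1)))
    (hprop : ∀ ε > 0, ∃ δ > 0, ∀ z ∈ e '' (Ioo 0 1 ×ˢ Ioo 0 1),
      z ∉ e '' (Icc δ (1-δ) ×ˢ Icc δ (1-δ)) →
        infDist (f z) (Ioo 0 W ×ˢ Ioo 0 1)ᶜ < ε)
    {lam H : ℝ} (hlam : 1 ≤ lam)
    (hweak : ∀ z ∈ e '' (Ioo 0 1 ×ˢ Ioo 0 1) ∩ f ⁻¹' (Ioo 0 W ×ˢ Ioo 0 1),
      ∀ z'' ∈ e '' (Ioo 0 1 ×ˢ Ioo 0 1) ∩ f ⁻¹' (Ioo 0 W ×ˢ Ioo 0 1), ∀ z' : Z,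
        lam * dist z z' ≤ dist z z'' →
        H * dist (f z'') (f z) < infDist (f z) (Ioo 0 W ×ˢ Ioo 0 1)ᶜ →
          z' ∈ e '' (Ioo 0 1 ×ˢ Ioo 0 1) ∩ f ⁻¹' (Ioo 0 W ×ˢ Ioo 0 1) ∧
          dist (f z') (f z) ≤ H * dist (f z'') (f z)) :
    InjOn f (e '' (Ioo 0 1 ×ˢ Ioo 0 1) ∩ f ⁻¹' (Ioo 0 W ×ˢ Ioo 0 1)) := by
  intro z hz z'' hz'' hzz
  by_contra hne
  set O := e '' (Ioo (0:ℝ) 1 ×ˢ Ioo (0:ℝ) 1) with hO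
  set p := f z with hp
  have hpR : p ∈ Ioo 0 W ×ˢ Ioo 0 1 := hz.2
  have hFc : IsCompact (O ∩ f ⁻¹' {p}) :=
    isCompact_fibre he hcont hprop isCompact_singleton (singleton_subset_iff.2 hpR)
  have hFo : IsOpen (O ∩ f ⁻¹' {p}) := by
    rw [isOpen_iff]
    rintro w ⟨hwO, hwp⟩
    have hwp : f w = p := hwp
    obtain ⟨w₂, hw₂O, hw₂p, hw₂ne⟩ : ∃ w₂ ∈ O, f w₂ = p ∧ w₂ ≠ w := by
      by_cases h : w = z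
      · exact ⟨z'', hz''.1, hzz.symm, fun h' => hne (by rw [← h, ← h'])⟩
      · exact ⟨z, hz.1, rfl, fun h' => h h'.symm⟩
    have hd : 0 < dist w w₂ := dist_pos.2 hw₂ne.symm
    refine ⟨dist w w₂ / lam, by positivity, fun z' hz' => ?_⟩
    rw [mem_ball] at hz'
    have h1 : lam * dist w z' ≤ dist w w₂ := by
      rw [lt_div_iff₀ (by linarith)] at hz'
      rw [dist_comm w z', mul_comm]; exact hz'.le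
    have hR : f w ∈ Ioo 0 W ×ˢ Ioo 0 1 := by rw [hwp]; exact hpR
    have hR₂ : f w₂ ∈ Ioo 0 W ×ˢ Ioo 0 1 := by rw [hw₂p]; exact hpR
    obtain ⟨h2, h3⟩ := hweak w ⟨hwO, hR⟩ w₂ ⟨hw₂O, hR₂⟩ z' h1 (by
      rw [hw₂p, hwp, dist_self, mul_zero]; exact infDist_pos hpR)
    rw [hw₂p, hwp, dist_self, mul_zero] at h3
    exact ⟨h2.1, dist_le_zero.1 h3⟩
  have hOc : IsPreconnected O :=
    (isPreconnected_Ioo.prod isPreconnected_Ioo).image e he.continuous.continuousOn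
  have hsub : O ⊆ O ∩ f ⁻¹' {p} :=
    hOc.subset_isClopen ⟨hFc.isClosed, hFo⟩ ⟨z, hz.1, hz.1, rfl⟩
  obtain ⟨a, ha, ha'⟩ := hsurj (show ((W/2, 1/2) : ℝ × ℝ) ∈ Ioo 0 W ×ˢ Ioo 0 1 from
    ⟨⟨by positivity, by linarith⟩, by norm_num, by norm_num⟩)
  obtain ⟨b, hb, hb'⟩ := hsurj (show ((W/2, 1/3) : ℝ × ℝ) ∈ Ioo 0 W ×ˢ Ioo 0 1 from
    ⟨⟨by positivity, by linarith⟩, by norm_num, by norm_num⟩)
  have h1 : f a = p := (hsub ha).2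
  have h2 : f b = p := (hsub hb).2
  rw [h1] at ha'; rw [h2, ha'] at hb'
  have := congrArg Prod.snd hb'
  norm_num at this

theorem openMap (he : Topology.IsOpenEmbedding e)
    (hcont : ContinuousOn f (e '' (Ioo 0 1 ×ˢ Ioo 0 1)))
    (hsurj : Ioo 0 W ×ˢ Ioo 0 1 ⊆ f '' (e '' (Ioo 0 1 ×ˢ Ioo 0 1)))
    (hprop : ∀ ε > 0, ∃ δ > 0, ∀ z ∈ e '' (Ioo 0 1 ×ˢ Ioo 0 1),
      z ∉ e '' (Icc δ (1-δ) ×ˢ Icc δ (1-δ)) →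
        infDist (f z) (Ioo 0 W ×ˢ Ioo 0 1)ᶜ < ε)
    (hinj : InjOn f (e '' (Ioo 0 1 ×ˢ Ioo 0 1) ∩ f ⁻¹' (Ioo 0 W ×ˢ Ioo 0 1)))
    {V : Set Z} (hV : V ⊆ e '' (Ioo 0 1 ×ˢ Ioo 0 1) ∩ f ⁻¹' (Ioo 0 W ×ˢ Ioo 0 1))
    (hVo : IsOpen V) : IsOpen (f '' V) := by
  rw [isOpen_iff]
  rintro _ ⟨v, hv, rfl⟩
  obtain ⟨r, hr, hrR⟩ := isOpen_iff.1 (isOpen_rect (W := W)) (f v) (hV hv).2
  have hrR' : closedBall (f v) (r/2) ⊆ Ioo 0 W ×ˢ Ioo 0 1 :=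
    (closedBall_subset_ball (by linarith)).trans hrR
  have hC : IsCompact (e '' (Ioo 0 1 ×ˢ Ioo 0 1) ∩ f ⁻¹' closedBall (f v) (r/2)) :=
    isCompact_fibre he hcont hprop (isCompact_closedBall _ _) hrR'
  have hD : IsCompact ((e '' (Ioo 0 1 ×ˢ Ioo 0 1) ∩ f ⁻¹' closedBall (f v) (r/2)) \ V) :=
    hC.diff hVo
  have hDi := hD.image_of_continuousOn (hcont.mono (sdiff_subset.trans inter_subset_left))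
  have hv' : f v ∉ f '' ((e '' (Ioo 0 1 ×ˢ Ioo 0 1) ∩ f ⁻¹' closedBall (f v) (r/2)) \ V) := by
    rintro ⟨c, ⟨⟨hcO, hcb⟩, hcV⟩, hc⟩
    have := hinj ⟨hcO, hrR' hcb⟩ (hV hv) hc
    exact hcV (this ▸ hv)
  obtain ⟨s, hs, hsD⟩ := isOpen_iff.1 hDi.isClosed.isOpen_compl (f v) hv'
  refine ⟨min s (r/2), by positivity, fun q hq => ?_⟩
  rw [mem_ball] at hq
  have hq1 : q ∈ ball (f v) s := mem_ball.2 (hq.trans_le (min_le_left _ _))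
  have hq2 : q ∈ closedBall (f v) (r/2) := mem_closedBall.2 (hq.trans_le (min_le_right _ _)).le
  obtain ⟨u, huO, rfl⟩ := hsurj (hrR' hq2)
  by_cases huV : u ∈ V
  · exact ⟨u, huV, rfl⟩
  · exact absurd ⟨u, ⟨⟨huO, hq2⟩, huV⟩, rfl⟩ (hsD hq1)

omit [MetricSpace Z] in
theorem image_eq (hsurj : Ioo 0 W ×ˢ Ioo 0 1 ⊆ f '' (e '' (Ioo 0 1 ×ˢ Ioo 0 1))) :
    f '' (e '' (Ioo 0 1 ×ˢ Ioo 0 1) ∩ f ⁻¹' (Ioo 0 W ×ˢ Ioo 0 1)) = Ioo 0 W ×ˢ Ioo 0 1 := by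
  apply Subset.antisymm
  · rintro _ ⟨z, hz, rfl⟩; exact hz.2
  · intro p hp
    obtain ⟨z, hz, rfl⟩ := hsurj hp
    exact ⟨z, ⟨hz, hp⟩, rfl⟩

/-- everything that `WeakChart f U lam H` asks for, `U = e '' osqr ∩ f ⁻¹' rectangle` -/
theorem weakChart_core (he : Topology.IsOpenEmbedding e) (hW : 0 < W)
    (hcont : ContinuousOn f (e '' (Ioo 0 1 ×ˢ Ioo 0 1)))
    (hsurj : Ioo 0 W ×ˢ Ioo 0 1 ⊆ f '' (e '' (Ioo 0 1 ×ˢ Ioo 0 1)))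
    (hprop : ∀ ε > 0, ∃ δ > 0, ∀ z ∈ e '' (Ioo 0 1 ×ˢ Ioo 0 1),
      z ∉ e '' (Icc δ (1-δ) ×ˢ Icc δ (1-δ)) →
        infDist (f z) (Ioo 0 W ×ˢ Ioo 0 1)ᶜ < ε)
    {lam H : ℝ} (hlam : 1 ≤ lam)
    (hweak : ∀ z ∈ e '' (Ioo 0 1 ×ˢ Ioo 0 1) ∩ f ⁻¹' (Ioo 0 W ×ˢ Ioo 0 1),
      ∀ z'' ∈ e '' (Ioo 0 1 ×ˢ Ioo 0 1) ∩ f ⁻¹' (Ioo 0 W ×ˢ Ioo 0 1), ∀ z' : Z,
        lam * dist z z' ≤ dist z z'' →
        H * dist (f z'') (f z) < infDist (f z) (Ioo 0 W ×ˢ Ioo 0 1)ᶜ →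
          z' ∈ e '' (Ioo 0 1 ×ˢ Ioo 0 1) ∩ f ⁻¹' (Ioo 0 W ×ˢ Ioo 0 1) ∧
          dist (f z') (f z) ≤ H * dist (f z'') (f z)) :
    let U := e '' (Ioo 0 1 ×ˢ Ioo 0 1) ∩ f ⁻¹' (Ioo 0 W ×ˢ Ioo 0 1)
    IsOpen U ∧ U.Nonempty ∧ ContinuousOn f U ∧ InjOn f U ∧
      (∀ V ⊆ U, IsOpen V → IsOpen (f '' V)) ∧ f '' U = Ioo 0 W ×ˢ Ioo 0 1 ∧
      ∀ z ∈ U, ∀ z'' ∈ U, ∀ z' : Z, lam * dist z z' ≤ dist z z'' →
        H * dist (f z'') (f z) < infDist (f z) (f '' U)ᶜ →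
          z' ∈ U ∧ dist (f z') (f z) ≤ H * dist (f z'') (f z) := by
  intro U
  have hO : IsOpen (e '' (Ioo (0:ℝ) 1 ×ˢ Ioo (0:ℝ) 1)) :=
    he.isOpenMap _ (isOpen_Ioo.prod isOpen_Ioo)
  have himg : f '' U = Ioo 0 W ×ˢ Ioo 0 1 := image_eq hsurj
  have hinj : InjOn f U := injOn he hW hcont hsurj hprop hlam hweak
  refine ⟨hcont.isOpen_inter_preimage hO isOpen_rect, ?_, hcont.mono inter_subset_left, hinj,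
    fun V hV hVo => openMap he hcont hsurj hprop hinj hV hVo, himg, ?_⟩
  · have hp : ((W/2, 1/2) : ℝ × ℝ) ∈ Ioo 0 W ×ˢ Ioo 0 1 :=
      ⟨⟨by positivity, by linarith⟩, by norm_num, by norm_num⟩
    obtain ⟨a, ha, ha'⟩ := hsurj hp
    exact ⟨a, ha, show f a ∈ _ by rw [ha']; exact hp⟩
  · intro z hz z'' hz'' z' h1 h2
    rw [himg] at h2
    exact hweak z hz z'' hz'' z' h1 h2

end Topo

end P198C
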