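import Vale.Agent.P198.CH.WeakQS
import Vale.Agent.P198.CH.Topo
import Vale.Agent.P198.RD.OfWeak

/-!
# P198 block CH: the local chart
-/

open Metric Set TopologicalSpace P198Q P198S MeasureTheory Filter
open scoped Classical ENNReal Topology

namespace P198C

/-- identification of `ℝ × ℝ` with `ℂ` -/
noncomputable def toC : ℝ × ℝ ≃ₜ ℂ := Complex.equivRealProdCLM.symm.toHomeomorph

theorem toC_re (p : ℝ × ℝ) : (toC p).re = p.1 := rfl
theorem toC_im (p : ℝ × ℝ) : (toC p).im = p.2 := rfl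

theorem norm_toC_le (p p' : ℝ × ℝ) : ‖toC p - toC p'‖ ≤ 2 * dist p p' := by
  refine (Complex.norm_le_abs_re_add_abs_im _).trans ?_
  rw [Complex.sub_re, Complex.sub_im, toC_re, toC_re, toC_im, toC_im, Prod.dist_eq, Real.dist_eq, Real.dist_eq]
  have h1 := le_max_left |p.1 - p'.1| |p.2 - p'.2|
  have h2 := le_max_right |p.1 - p'.1| |p.2 - p'.2|
  linarith

theorem dist_le_norm_toC (p p' : ℝ × ℝ) : dist p p' ≤ ‖toC p - toC p'‖ := by
  rw [Prod.dist_eq, Real.dist_eq, Real.dist_eq]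
  refine max_le ?_ ?_
  · have := Complex.abs_re_le_norm (toC p - toC p')
    rwa [Complex.sub_re, toC_re, toC_re] at this
  · have := Complex.abs_im_le_norm (toC p - toC p')
    rwa [Complex.sub_im, toC_im, toC_im] at this

/-- **The local chart.** -/
theorem exists_lchart {G Z : Type*} [Group G] [MetricSpace Z] [MulAction G Z] [CompactSpace Z]
    [ConnectedSpace Z] (q : QM G Z) (hT1 : P198L.T1 Z) {e : ℝ × ℝ → Z} (he : Topology.IsOpenEmbedding e)
    {N : ℕ → Finset Z} (hN : IsNet N) {D : ℝ → ℝ} {Q : ℕ} (hD : Doubling Z D Q) {Cc : ℝ}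
    (hc : CrossBd N Cc)
    (hmod : ∀ t : ℝ, 0 < t → ∃ C : ℝ, ∀ k, md (N k) (hit k) (contDiam Z t) ≤ C) {A : ℝ} (hA : 0 ≤ A)
    (k₀ : ℕ) (B : ∀ k, k₀ ≤ k → Board e N k A)
    (hcov : ∀ δ : ℝ, 0 < δ → ∃ k₁, ∀ k (h : k₀ ≤ k), k₁ ≤ k →
      e '' (Icc δ (1 - δ) ×ˢ Icc δ (1 - δ)) ⊆ ⋃ c, (B k h).cell c) :
    ∃ E : OpenPartialHomeomorph Z ℂ, P198S2.LChart E := by
  obtain ⟨E₀, δ₀, hδ₀, ⟨S⟩⟩ := exists_sys he hN hD hmod hA k₀ B hcov
  have hy : Sys.Hyp N D Q A Cc := ⟨hN, hD, hA, hc⟩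
  obtain ⟨lam, H, hlam, hH, hweak⟩ := S.weak hy q hT1 hδ₀ he
  obtain ⟨hUo, hUne, hUc, hUi, hUm, himg, hw⟩ := Topo.weakChart_core he S.Winf_pos
    (S.continuousOn_f hy hδ₀ he) (S.surj hy hδ₀ he) (fun ε hε => S.prop hy hδ₀ he hε) hlam hweak
  set U := e '' (Ioo 0 1 ×ˢ Ioo 0 1) ∩ S.f ⁻¹' (Ioo 0 S.Winf ×ˢ Ioo (0 : ℝ) 1) with hU
  have : Nonempty Z := ⟨e (0, 0)⟩
  have hinj : InjOn (fun z => toC (S.f z)) U := fun z hz z' hz' h => hUi hz hz' (toC.injective h)
  let E : OpenPartialHomeomorph Z ℂ := OpenPartialHomeomorph.ofContinuousOpenRestrict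
    (hinj.toPartialEquiv (fun z => toC (S.f z)) U)
    (toC.continuous.comp_continuousOn hUc) (by
      intro V hV
      have h1 : IsOpen (Subtype.val '' V) := hUo.isOpenMap_subtype_val V hV
      have h2 : Subtype.val '' V ⊆ U := by
        rintro _ ⟨v, _, rfl⟩
        exact v.2
      have h3 := toC.isOpenMap _ (hUm _ h2 h1)
      convert h3 using 1
      rw [image_image, image_image]
      rfl) hUo
  refine ⟨E, P198R.lchart_of_wqs q hT1 E hUne lam (2 * H) ?_⟩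
  intro z hz
  have hzU : z ∈ U := hz
  have himg' : ∀ x ∈ U, H * 0 < infDist (S.f x) (S.f '' U)ᶜ := by
    intro x hx
    rw [himg, mul_zero]
    exact Topo.infDist_pos (by rw [← himg]; exact mem_image_of_mem _ hx)
  set m := infDist (S.f z) (S.f '' U)ᶜ with hm
  have hm0 : 0 < m := by
    have := himg' z hzU
    rwa [mul_zero] at this
  have hH0 : 0 < H := by linarith
  have hct : ContinuousAt S.f z := hUc.continuousAt (hUo.mem_nhds hzU)
  obtain ⟨r₁, hr₁, hr₁'⟩ := Metric.continuousAt_iff.1 hct (m / (4 * (H + 1))) (by positivity)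
  obtain ⟨r₂, hr₂, hr₂'⟩ := Metric.isOpen_iff.1 hUo z hzU
  refine ⟨min r₁ r₂, lt_min hr₁ hr₂, (ball_subset_ball (min_le_right _ _)).trans hr₂', ?_⟩
  intro x hx y hy' w hw' hxy
  have hxU : x ∈ U := hr₂' (ball_subset_ball (min_le_right _ _) hx)
  have hwU : w ∈ U := hr₂' (ball_subset_ball (min_le_right _ _) hw')
  have hfx := hr₁' (ball_subset_ball (min_le_left _ _) hx)
  have hfw := hr₁' (ball_subset_ball (min_le_left _ _) hw')
  rw [lt_div_iff₀ (by positivity)] at hfx hfw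
  have h1 : m ≤ infDist (S.f x) (S.f '' U)ᶜ + dist (S.f z) (S.f x) := infDist_le_infDist_add_dist
  have h2 := dist_triangle (S.f w) (S.f z) (S.f x)
  rw [dist_comm (S.f z) (S.f x)] at h1 h2
  have h3 : 0 ≤ dist (S.f x) (S.f z) := dist_nonneg
  have h4 : 0 ≤ dist (S.f w) (S.f z) := dist_nonneg
  have h5 : H * dist (S.f w) (S.f x) < infDist (S.f x) (S.f '' U)ᶜ := by
    have h6 : H * dist (S.f w) (S.f x) ≤ H * dist (S.f w) (S.f z) + H * dist (S.f x) (S.f z) := by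
      rw [← mul_add]
      exact mul_le_mul_of_nonneg_left h2 hH0.le
    nlinarith
  have h6 := (hw x hxU w hwU y hxy h5).2
  calc ‖E y - E x‖ ≤ 2 * dist (S.f y) (S.f x) := norm_toC_le _ _
    _ ≤ 2 * (H * dist (S.f w) (S.f x)) := by gcongr
    _ = 2 * H * dist (S.f w) (S.f x) := by ring
    _ ≤ 2 * H * ‖E w - E x‖ := by
        have := dist_le_norm_toC (S.f w) (S.f x)
        gcongr
        exact this

end P198C
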