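import Vale.Agent.P198.SQ.Ring

/-!
# P198 block CH: counting square rings (weak quasisymmetry at finite level), counting lines
-/

open scoped Classical ENNReal
open MeasureTheory Set P198S P198S.Tiling

namespace P198C

section aux

variable {C : Type*} {H : HexRect C} {W h : ℝ} {ρ x y : C → ℝ}

/-- a square containing a point at distance `≤ u` and a point at distance `≥ u` meets the sphere -/
theorem meet_sphere {c : C} {p z w : ℝ × ℝ} {u : ℝ} (hz : z ∈ sq ρ x y c) (hw : w ∈ sq ρ x y c)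
    (h1 : dist z p ≤ u) (h2 : u ≤ dist w p) : c ∈ meet ρ x y (Metric.sphere p u) := by
  have hc : Convex ℝ (sq ρ x y c) := (convex_Icc _ _).prod (convex_Icc _ _)
  have hpc : IsPreconnected (sq ρ x y c) := hc.isPreconnected
  have hcont : ContinuousOn (fun q : ℝ × ℝ => dist q p) (sq ρ x y c) := by fun_prop
  obtain ⟨q, hq, hqu⟩ := hpc.intermediate_value hz hw hcont ⟨h1, h2⟩
  exact ⟨q, hq, hqu⟩

theorem adj_meet [Fintype C] (t : Tiling H W h ρ x y) {c d : C} (hcd : H.adj c d) :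
    ∃ z, z ∈ sq ρ x y c ∧ z ∈ sq ρ x y d := by
  have h1 := t.adj_x c d hcd
  have h2 := t.adj_x d c (H.symm c d hcd)
  have h3 := t.adj_y c d hcd
  have h4 := t.adj_y d c (H.symm c d hcd)
  have h5 := t.nonneg c
  have h6 := t.nonneg d
  refine ⟨(max (x c) (x d), max (y c) (y d)), ?_, ?_⟩
  · rw [mem_sq]
    exact ⟨⟨le_max_left _ _, max_le (by linarith) h1⟩, ⟨le_max_left _ _, max_le (by linarith) h3⟩⟩
  · rw [mem_sq]
    exact ⟨⟨le_max_right _ _, max_le h2 (by linarith)⟩, ⟨le_max_right _ _, max_le h4 (by linarith)⟩⟩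

/-- a chain from near `p` to far from `p` contains a cell of every intermediate ring -/
theorem chain_ring [Fintype C] (t : Tiling H W h ρ x y) {p : ℝ × ℝ} {u : ℝ} {M : Set C} {a b : C}
    (ha : a ∈ M) (l : Link H M a b) (hn : ∃ z ∈ sq ρ x y a, dist z p ≤ u)
    (hf : ∃ z ∈ sq ρ x y b, u ≤ dist z p) : ∃ c ∈ M, c ∈ meet ρ x y (Metric.sphere p u) := by
  by_contra hcon
  push Not at hcon
  have key : ∀ c, Link H M a c → c ∈ M ∧ ∃ z ∈ sq ρ x y c, dist z p ≤ u := by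
    intro c hc
    induction hc with
    | refl => exact ⟨ha, hn⟩
    | @tail c₁ c₂ _ hst ih =>
      obtain ⟨hcM, z, hz, hzu⟩ := ih
      obtain ⟨q, hq, hq'⟩ := adj_meet t hst.1
      refine ⟨hst.2.2, q, hq', ?_⟩
      by_contra h1
      push Not at h1
      exact hcon c₁ hcM (meet_sphere hz hq hzu h1.le)
  obtain ⟨hbM, z, hz, hzu⟩ := key b l
  obtain ⟨w, hw, hwu⟩ := hf
  exact hcon b hbM (meet_sphere hz hw hzu hwu)

end aux

variable {C : Type*} [Fintype C] {H : HexRect C} {W h : ℝ} {ρ x y : C → ℝ}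

/-- cells meeting the open square annulus of index `m` -/
noncomputable def annG (ρ x y : C → ℝ) (p : ℝ × ℝ) (d : ℝ) (m : ℕ) : Finset C :=
  Finset.univ.filter fun c => ∃ u ∈ Ioo (2 ^ m * d) (2 ^ (m + 1) * d), u ∈ radii ρ x y p c

theorem annG_card_le (p : ℝ × ℝ) (d : ℝ) (hd : 0 < d) (hρ : ∀ c, ρ c ≤ d) (n : ℕ) (c : C) :
    ((Finset.range n).filter fun m => c ∈ annG ρ x y p d m).card ≤ 2 := by
  set S := (Finset.range n).filter fun m => c ∈ annG ρ x y p d m with hS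
  have hclose : ∀ m ∈ S, ∀ m' ∈ S, m' ≤ m + 1 := by
    intro m hm m' hm'
    by_contra hcon
    push Not at hcon
    simp only [hS, annG, Finset.mem_filter, Finset.mem_range, Finset.mem_univ, true_and] at hm hm'
    obtain ⟨-, u, hu, z, hz, hzu⟩ := hm
    obtain ⟨-, u', hu', z', hz', hzu'⟩ := hm'
    have h1 : |dist z' p - dist z p| ≤ dist z' z := abs_dist_sub_le z' z p
    have h2 : dist z' z ≤ d := (dist_le_of_mem_sq hz' hz).trans (hρ c)
    simp only at hzu hzu'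
    rw [hzu, hzu'] at h1
    have h3 : u' - u ≤ d := (le_abs_self _).trans (h1.trans h2)
    have h4 : (2 : ℝ) ^ (m + 2) * d ≤ 2 ^ m' * d :=
      mul_le_mul_of_nonneg_right (pow_le_pow_right₀ (by norm_num) hcon) hd.le
    have h5 := hu.2
    have h6 := hu'.1
    have h7 : (1 : ℝ) ≤ 2 ^ m := one_le_pow₀ (by norm_num)
    have h8 : (2 : ℝ) ^ (m + 2) * d - 2 ^ (m + 1) * d = 2 * 2 ^ m * d := by ring
    nlinarith
  rcases S.eq_empty_or_nonempty with he | hne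
  · rw [he]; simp
  · have hsub : S ⊆ {S.min' hne, S.min' hne + 1} := by
      intro m hm
      have h1 := S.min'_le m hm
      have h2 := hclose _ (S.min'_mem hne) m hm
      simp only [Finset.mem_insert, Finset.mem_singleton]
      omega
    exact (Finset.card_le_card hsub).trans Finset.card_le_two

/-- **Counting square rings.** Two chains joining the small square `Sq(p,d)` to the complement of the
large square `Sq(p,2^n d)`, all cells being at most `d`; a weight which gives length `≥ 1` to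
everything joining them has energy at least `n / 72`. -/
theorem ring_count' (t : Tiling H W h ρ x y) (p : ℝ × ℝ) (d : ℝ) (hd : 0 < d) (hρ : ∀ c, ρ c ≤ d)
    (n : ℕ) (hball : Metric.closedBall p (2 ^ n * d) ⊆ Ioo 0 W ×ˢ Ioo 0 h) (M₁ M₂ : Set C)
    (a₁ b₁ a₂ b₂ : C) (ha₁ : a₁ ∈ M₁) (ha₂ : a₂ ∈ M₂) (l₁ : Link H M₁ a₁ b₁)
    (l₂ : Link H M₂ a₂ b₂) (n₁ : ∃ z ∈ sq ρ x y a₁, dist z p ≤ d)
    (n₂ : ∃ z ∈ sq ρ x y a₂, dist z p ≤ d) (f₁ : ∃ z ∈ sq ρ x y b₁, 2 ^ n * d ≤ dist z p)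
    (f₂ : ∃ z ∈ sq ρ x y b₂, 2 ^ n * d ≤ dist z p) (τ : C → ℝ) (hτ : ∀ c, 0 ≤ τ c)
    (hadm : ∀ (M : Set C) (c c' : C), c ∈ M → c ∈ M₁ → c' ∈ M → c' ∈ M₂ → Link H M c c' →
      1 ≤ ∑ c ∈ Finset.univ.filter (· ∈ M), τ c) : (n : ℝ) ≤ 72 * ∑ c, τ c ^ 2 := by
  have hstep : ∀ m < n, (1 : ℝ) / 36 ≤ ∑ c ∈ annG ρ x y p d m, τ c ^ 2 := by
    intro m hm
    have hm1 : (1 : ℝ) ≤ 2 ^ m := one_le_pow₀ (by norm_num)
    have hmn : (2 : ℝ) ^ (m + 1) * d ≤ 2 ^ n * d :=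
      mul_le_mul_of_nonneg_right (pow_le_pow_right₀ (by norm_num) hm) hd.le
    have hdm : d ≤ 2 ^ m * d := by nlinarith
    have hq : (2 : ℝ) ^ (m + 1) * d = 2 ^ m * d + 2 ^ m * d := by ring
    have hLA := length_area (annG ρ x y p d m) τ ρ hτ t.nonneg (radii ρ x y p)
      (measurableSet_radii p) (volume_radii_le p) (2 ^ m * d) (2 ^ (m + 1) * d) (by nlinarith) (by
        filter_upwards [ae_gen_sub ρ x p.1, ae_gen_add ρ x p.1, ae_gen_sub ρ y p.2,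
          ae_gen_add ρ y p.2] with u g1 g2 g3 g4 hu
        have hu0 : 0 < u := lt_trans (by positivity) hu.1
        have hun : u < 2 ^ n * d := lt_of_lt_of_le hu.2 hmn
        have hmem : ∀ z : ℝ × ℝ, dist z p ≤ u → z ∈ Ioo 0 W ×ˢ Ioo 0 h := fun z hz =>
          hball (Metric.mem_closedBall.2 (hz.trans hun.le))
        have hp1 : (p.1 - u, p.2) ∈ Ioo 0 W ×ˢ Ioo 0 h := hmem _ (by
          rw [Prod.dist_eq]; simp [abs_of_pos hu0, hu0.le])
        have hp2 : (p.1 + u, p.2) ∈ Ioo 0 W ×ˢ Ioo 0 h := hmem _ (by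
          rw [Prod.dist_eq]; simp [abs_of_pos hu0, hu0.le])
        have hp3 : (p.1, p.2 - u) ∈ Ioo 0 W ×ˢ Ioo 0 h := hmem _ (by
          rw [Prod.dist_eq]; simp [abs_of_pos hu0, hu0.le])
        have hp4 : (p.1, p.2 + u) ∈ Ioo 0 W ×ˢ Ioo 0 h := hmem _ (by
          rw [Prod.dist_eq]; simp [abs_of_pos hu0, hu0.le])
        have hdu : d ≤ u := hdm.trans hu.1.le
        obtain ⟨c, hcM, hc⟩ := chain_ring t (p := p) (u := u) ha₁ l₁
          (by obtain ⟨z, hz, hzd⟩ := n₁; exact ⟨z, hz, hzd.trans hdu⟩)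
          (by obtain ⟨z, hz, hzd⟩ := f₁; exact ⟨z, hz, hun.le.trans hzd⟩)
        obtain ⟨c', hcM', hc'⟩ := chain_ring t (p := p) (u := u) ha₂ l₂
          (by obtain ⟨z, hz, hzd⟩ := n₂; exact ⟨z, hz, hzd.trans hdu⟩)
          (by obtain ⟨z, hz, hzd⟩ := f₂; exact ⟨z, hz, hun.le.trans hzd⟩)
        have hl := t.ring_link hu0 hp1.1.1 hp2.1.2 hp3.2.1 hp4.2.2 g1 g2 g3 g4 c c' hc hc'
        refine (hadm _ c c' hc hcM hc' hcM' hl).trans (le_of_eq ?_)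
        refine Finset.sum_congr ?_ fun _ _ => rfl
        ext e
        simp only [annG, Finset.mem_filter, Finset.mem_univ, true_and, ← mem_radii]
        exact ⟨fun he => ⟨⟨u, hu, he⟩, he⟩, fun he => he.2⟩)
    have harea : ∑ c ∈ annG ρ x y p d m, ρ c ^ 2 ≤ (2 * (3 * 2 ^ m * d)) ^ 2 := by
      apply t.local_area_ball _ p _ (by positivity)
      intro c hc z hz
      simp only [annG, Finset.mem_filter, Finset.mem_univ, true_and] at hc
      obtain ⟨u, hu, w, hw, hwu⟩ := hc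
      rw [Metric.mem_closedBall]
      have h1 : dist z w ≤ d := (dist_le_of_mem_sq hz hw).trans (hρ c)
      have h2 : dist w p ≤ 2 ^ (m + 1) * d := by
        simp only at hwu
        rw [hwu]; exact hu.2.le
      have h3 := dist_triangle z w p
      nlinarith
    set X := ∑ c ∈ annG ρ x y p d m, τ c ^ 2 with hX
    have hX0 : 0 ≤ X := Finset.sum_nonneg fun _ _ => sq_nonneg _
    have hpos : 0 < (2 ^ m * d) ^ 2 := by positivity
    have h1 : (2 ^ m * d) ^ 2 ≤ X * (36 * (2 ^ m * d) ^ 2) := by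
      calc (2 ^ m * d) ^ 2 = (2 ^ (m + 1) * d - 2 ^ m * d) ^ 2 := by rw [hq]; ring
        _ ≤ X * ∑ c ∈ annG ρ x y p d m, ρ c ^ 2 := hLA
        _ ≤ X * (2 * (3 * 2 ^ m * d)) ^ 2 := mul_le_mul_of_nonneg_left harea hX0
        _ = X * (36 * (2 ^ m * d) ^ 2) := by ring
    have h2 : 1 * (2 ^ m * d) ^ 2 ≤ (36 * X) * (2 ^ m * d) ^ 2 := by nlinarith
    have h3 := le_of_mul_le_mul_right h2 hpos
    linarith
  have hsum : (n : ℝ) * (1 / 36) ≤ ∑ m ∈ Finset.range n, ∑ c ∈ annG ρ x y p d m, τ c ^ 2 := by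
    calc (n : ℝ) * (1 / 36) = ∑ _m ∈ Finset.range n, (1 : ℝ) / 36 := by simp
      _ ≤ _ := Finset.sum_le_sum fun m hm => hstep m (Finset.mem_range.1 hm)
  have hswap : ∑ m ∈ Finset.range n, ∑ c ∈ annG ρ x y p d m, τ c ^ 2 ≤ ∑ c, 2 * τ c ^ 2 := by
    calc ∑ m ∈ Finset.range n, ∑ c ∈ annG ρ x y p d m, τ c ^ 2
        = ∑ m ∈ Finset.range n, ∑ c, if c ∈ annG ρ x y p d m then τ c ^ 2 else 0 := by
          refine Finset.sum_congr rfl fun m _ => ?_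
          rw [← Finset.sum_filter]
          refine Finset.sum_congr ?_ fun _ _ => rfl
          ext c; simp
      _ = ∑ c, ∑ m ∈ Finset.range n, if c ∈ annG ρ x y p d m then τ c ^ 2 else 0 :=
          Finset.sum_comm
      _ = ∑ c, (((Finset.range n).filter fun m => c ∈ annG ρ x y p d m).card : ℝ) * τ c ^ 2 := by
          refine Finset.sum_congr rfl fun c _ => ?_
          rw [← Finset.sum_filter, Finset.sum_const, nsmul_eq_mul]
      _ ≤ ∑ c, 2 * τ c ^ 2 := by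
          refine Finset.sum_le_sum fun c _ => mul_le_mul_of_nonneg_right ?_ (sq_nonneg _)
          exact_mod_cast annG_card_le p d hd hρ n c
  rw [← Finset.mul_sum] at hswap
  linarith

theorem ring_count (t : Tiling H W h ρ x y) (p : ℝ × ℝ) (d : ℝ) (hd : 0 < d) (hρ : ∀ c, ρ c ≤ d)
    (n : ℕ) (hball : Metric.closedBall p (2 ^ n * d) ⊆ Ioo 0 W ×ˢ Ioo 0 h) (M₁ M₂ : Set C)
    (a₁ b₁ a₂ b₂ : C) (ha₁ : a₁ ∈ M₁) (ha₂ : a₂ ∈ M₂) (l₁ : Link H M₁ a₁ b₁)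
    (l₂ : Link H M₂ a₂ b₂) (n₁ : ∃ z ∈ sq ρ x y a₁, dist z p ≤ d)
    (n₂ : ∃ z ∈ sq ρ x y a₂, dist z p ≤ d) (f₁ : ∃ z ∈ sq ρ x y b₁, 2 ^ n * d ≤ dist z p)
    (f₂ : ∃ z ∈ sq ρ x y b₂, 2 ^ n * d ≤ dist z p) (τ : C → ℝ) (hτ : ∀ c, 0 ≤ τ c)
    (hadm : ∀ (M : Set C) (c c' : C), c ∈ M → c ∈ M₁ → c' ∈ M → c' ∈ M₂ → Link H M c c' →
      1 ≤ ∑ c ∈ Finset.univ.filter (· ∈ M), τ c) : (n : ℝ) ≤ 128 * ∑ c, τ c ^ 2 := by
  have h1 := ring_count' t p d hd hρ n hball M₁ M₂ a₁ b₁ a₂ b₂ ha₁ ha₂ l₁ l₂ n₁ n₂ f₁ f₂ τ hτ hadm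
  have h2 : 0 ≤ ∑ c, τ c ^ 2 := Finset.sum_nonneg fun _ _ => sq_nonneg _
  linarith

/-- **Counting vertical lines.** -/
theorem line_count (t : Tiling H W h ρ x y) (T : C → ℝ) (hT : ∀ c, 0 ≤ T c) (b₁ b₂ : ℝ)
    (hb : b₁ ≤ b₂)
    (hl : ∀ b, b₁ < b → b < b₂ → Gen ρ x b → 1 ≤ ∑ c ∈ Finset.univ.filter (· ∈ V ρ x b), T c) :
    b₂ - b₁ ≤ Real.sqrt ((∑ c, T c ^ 2) * (W * h)) := by
  have hLA := length_area Finset.univ T ρ hT t.nonneg (fun c => Ioo (x c) (x c + ρ c))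
    (fun c => measurableSet_Ioo) (fun c => by rw [Real.volume_Ioo]; simp) b₁ b₂ hb (by
      filter_upwards [ae_gen ρ x] with b hgen hbI
      exact hl b hbI.1 hbI.2 hgen)
  rw [t.area] at hLA
  exact Real.le_sqrt_of_sq_le hLA

/-- **Counting horizontal lines.** -/
theorem line_count' (t : Tiling H W h ρ x y) (T : C → ℝ) (hT : ∀ c, 0 ≤ T c) (b₁ b₂ : ℝ)
    (hb : b₁ ≤ b₂)
    (hl : ∀ b, b₁ < b → b < b₂ → Gen ρ y b → 1 ≤ ∑ c ∈ Finset.univ.filter (· ∈ V ρ y b), T c) :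
    b₂ - b₁ ≤ Real.sqrt ((∑ c, T c ^ 2) * (W * h)) := by
  have h1 := line_count t.swap T hT b₁ b₂ hb hl
  rwa [mul_comm h W] at h1

end P198C
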