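import Vale.Agent.P198.CH.Upgrade
import Vale.Agent.P198.CH.Topo

/-!
# P198 block CH (local chart): `weakChart_of`
-/

open Metric Set TopologicalSpace

namespace P198C

theorem weakChart_of {Z : Type*} [MetricSpace Z] [CompactSpace Z] {e : ℝ × ℝ → Z}
    (he : Topology.IsOpenEmbedding e) {f : Z → ℝ × ℝ} {W : ℝ} (hW : 0 < W)
    (hcont : ContinuousOn f (e '' (Ioo 0 1 ×ˢ Ioo 0 1)))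
    (hsurj : Ioo 0 W ×ˢ Ioo 0 1 ⊆ f '' (e '' (Ioo 0 1 ×ˢ Ioo 0 1)))
    (hprop : ∀ ε > 0, ∃ δ > 0, ∀ z ∈ e '' (Ioo 0 1 ×ˢ Ioo 0 1),
      z ∉ e '' (Icc δ (1-δ) ×ˢ Icc δ (1-δ)) → Metric.infDist (f z) (Ioo 0 W ×ˢ Ioo 0 1)ᶜ < ε)
    {lam H : ℝ} (hlam : 1 ≤ lam) (hH : 1 ≤ H)
    (hweak : ∀ z ∈ e '' (Ioo 0 1 ×ˢ Ioo 0 1) ∩ f ⁻¹' (Ioo 0 W ×ˢ Ioo 0 1),
      ∀ z'' ∈ e '' (Ioo 0 1 ×ˢ Ioo 0 1) ∩ f ⁻¹' (Ioo 0 W ×ˢ Ioo 0 1), ∀ z' : Z,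
        lam * dist z z' ≤ dist z z'' →
        H * dist (f z'') (f z) < Metric.infDist (f z) (Ioo 0 W ×ˢ Ioo 0 1)ᶜ →
          z' ∈ e '' (Ioo 0 1 ×ˢ Ioo 0 1) ∩ f ⁻¹' (Ioo 0 W ×ˢ Ioo 0 1) ∧
          dist (f z') (f z) ≤ H * dist (f z'') (f z)) :
    WeakChart f (e '' (Ioo 0 1 ×ˢ Ioo 0 1) ∩ f ⁻¹' (Ioo 0 W ×ˢ Ioo 0 1)) lam H := by
  obtain ⟨h1, h2, h3, h4, h5, h6, h7⟩ := Topo.weakChart_core he hW hcont hsurj hprop hlam hweak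
  refine ⟨h1, h2, hlam, hH, h3, h4, h5, h7, ?_⟩
  rw [h6]
  exact (isBounded_Ioo 0 W).prod (isBounded_Ioo 0 1)

end P198C
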