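import Vale.Agent.P198.RD.OfWeak
import Vale.Agent.P198.LLC.LLC

/-!
# P198 block CH (local chart): from a weakly quasisymmetric map into `ℝ × ℝ` to an `LChart`
-/

open Metric Set TopologicalSpace

namespace P198C

/-- a weakly quasisymmetric local chart with values in `ℝ × ℝ` -/
structure WeakChart {Z : Type*} [MetricSpace Z] (f : Z → ℝ × ℝ) (U : Set Z) (lam H : ℝ) :
    Prop where
  isOpen : IsOpen U
  nonempty : U.Nonempty
  one_le_lam : 1 ≤ lam
  one_le_H : 1 ≤ H
  cont : ContinuousOn f U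
  inj : InjOn f U
  openMap : ∀ V ⊆ U, IsOpen V → IsOpen (f '' V)
  weak : ∀ z ∈ U, ∀ z'' ∈ U, ∀ z' : Z, lam * dist z z' ≤ dist z z'' →
    H * dist (f z'') (f z) < Metric.infDist (f z) (f '' U)ᶜ →
      z' ∈ U ∧ dist (f z') (f z) ≤ H * dist (f z'') (f z)
  bdd : Bornology.IsBounded (f '' U)

/-- the complex number with given coordinates -/
noncomputable def toC (p : ℝ × ℝ) : ℂ := Complex.equivRealProdCLM.symm p

theorem toC_re (p : ℝ × ℝ) : (toC p).re = p.1 := rfl

theorem toC_im (p : ℝ × ℝ) : (toC p).im = p.2 := rfl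

theorem norm_toC_le (p q : ℝ × ℝ) : ‖toC p - toC q‖ ≤ 2 * dist p q := by
  refine (Complex.norm_le_abs_re_add_abs_im _).trans ?_
  rw [Complex.sub_re, Complex.sub_im, toC_re, toC_re, toC_im, toC_im, Prod.dist_eq,
    Real.dist_eq, Real.dist_eq]
  have h1 := le_max_left |p.1 - q.1| |p.2 - q.2|
  have h2 := le_max_right |p.1 - q.1| |p.2 - q.2|
  linarith

theorem le_norm_toC (p q : ℝ × ℝ) : dist p q ≤ ‖toC p - toC q‖ := by
  rw [Prod.dist_eq, Real.dist_eq, Real.dist_eq]
  have h1 := Complex.abs_re_le_norm (toC p - toC q)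
  have h2 := Complex.abs_im_le_norm (toC p - toC q)
  rw [Complex.sub_re, toC_re, toC_re] at h1
  rw [Complex.sub_im, toC_im, toC_im] at h2
  exact max_le h1 h2

theorem isHomeomorph_toC : IsHomeomorph toC :=
  Complex.equivRealProdCLM.symm.toHomeomorph.isHomeomorph

/-- the partial homeomorphism of a weak chart -/
theorem WeakChart.exists_partialHomeo {Z : Type*} [MetricSpace Z] {f : Z → ℝ × ℝ} {U : Set Z}
    {lam H : ℝ} (h : WeakChart f U lam H) :
    ∃ e : OpenPartialHomeomorph Z ℂ, e.source = U ∧ ∀ z, e z = toC (f z) := by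
  have : Nonempty Z := ⟨h.nonempty.some⟩
  have hinj : InjOn (fun z => toC (f z)) U := fun x hx y hy hxy =>
    h.inj hx hy (isHomeomorph_toC.injective hxy)
  have hcont : ContinuousOn (fun z => toC (f z)) U :=
    isHomeomorph_toC.continuous.comp_continuousOn h.cont
  have hopen : IsOpenMap (U.domRestrict (fun z => toC (f z))) := by
    intro V hV
    have h1 : IsOpen ((↑) '' V : Set Z) := h.isOpen.isOpenMap_subtype_val V hV
    have h2 := h.openMap _ (Subtype.coe_image_subset U V) h1
    have h3 := isHomeomorph_toC.isOpenMap _ h2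
    rw [image_image, image_image] at h3
    exact h3
  refine ⟨OpenPartialHomeomorph.ofContinuousOpenRestrict
    (hinj.toPartialEquiv (fun z => toC (f z)) U) hcont hopen h.isOpen, rfl, fun z => rfl⟩

theorem lchart_of_weakChart {G Z : Type} [Group G] [MetricSpace Z] [MulAction G Z]
    [CompactSpace Z] [ConnectedSpace Z] (q : P198Q.QM G Z) (hT1 : P198L.T1 Z)
    {f : Z → ℝ × ℝ} {U : Set Z} {lam H : ℝ} (h : WeakChart f U lam H) :
    ∃ e : OpenPartialHomeomorph Z ℂ, P198S2.LChart e := by
  obtain ⟨e, hes, hef⟩ := h.exists_partialHomeo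
  refine ⟨e, P198R.lchart_of_wqs q ?_ e (by rw [hes]; exact h.nonempty) lam (2 * H) ?_⟩
  · exact hT1
  · intro z hz
    rw [hes] at hz ⊢
    have hHpos : 0 < H := by linarith [h.one_le_H]
    have hne : ((f '' U)ᶜ).Nonempty := by
      rw [nonempty_compl]
      intro hcon
      have := h.bdd
      rw [hcon] at this
      obtain ⟨C, hC⟩ := this.exists_norm_le
      have h1 := hC ((|C| + 1, 0) : ℝ × ℝ) (mem_univ _)
      have h2 : ‖(|C| + 1 : ℝ)‖ ≤ ‖((|C| + 1, 0) : ℝ × ℝ)‖ := norm_fst_le ((|C| + 1, 0) : ℝ × ℝ)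
      rw [Real.norm_of_nonneg (by positivity)] at h2
      linarith [le_abs_self C]
    have hio : IsOpen (f '' U) := h.openMap U Subset.rfl h.isOpen
    set m := infDist (f z) (f '' U)ᶜ with hm
    have hmpos : 0 < m := by
      rw [hm, ← hio.isClosed_compl.notMem_iff_infDist_pos hne]
      exact fun h' => h' (mem_image_of_mem f hz)
    -- a small ball
    have hs : 0 < m / (4 * H + 4) := by positivity
    obtain ⟨r, hr, hrs⟩ := Metric.continuousOn_iff.1 h.cont z hz (m / (4 * H + 4)) hs
    obtain ⟨r', hr', hr'U⟩ := isOpen_iff.1 h.isOpen z hz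
    refine ⟨min r r', lt_min hr hr', (ball_subset_ball (min_le_right _ _)).trans hr'U, ?_⟩
    intro x hx y hy w hw hxy
    have hxU : x ∈ U := hr'U (ball_subset_ball (min_le_right _ _) hx)
    have hwU : w ∈ U := hr'U (ball_subset_ball (min_le_right _ _) hw)
    have hfx := hrs x hxU ((mem_ball.1 hx).trans_le (min_le_left _ _))
    have hfw := hrs w hwU ((mem_ball.1 hw).trans_le (min_le_left _ _))
    have h1 : H * dist (f w) (f x) < infDist (f x) (f '' U)ᶜ := by
      have h2 : infDist (f z) (f '' U)ᶜ ≤ infDist (f x) (f '' U)ᶜ + dist (f z) (f x) :=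
        infDist_le_infDist_add_dist
      have h3 := dist_triangle_right (f w) (f x) (f z)
      rw [dist_comm (f z) (f x)] at h2
      have h4 : m = (4 * H + 4) * (m / (4 * H + 4)) := by field_simp
      have h5 : H * dist (f w) (f x) ≤ H * (2 * (m / (4 * H + 4))) := by
        apply mul_le_mul_of_nonneg_left _ hHpos.le
        linarith
      nlinarith
    obtain ⟨-, h6⟩ := h.weak x hxU w hwU y hxy h1
    rw [hef, hef, hef]
    calc ‖toC (f y) - toC (f x)‖ ≤ 2 * dist (f y) (f x) := norm_toC_le _ _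
      _ ≤ 2 * (H * dist (f w) (f x)) := by linarith
      _ ≤ 2 * (H * ‖toC (f w) - toC (f x)‖) := by
          have := le_norm_toC (f w) (f x)
          gcongr
      _ = 2 * H * ‖toC (f w) - toC (f x)‖ := by ring

end P198C
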