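import Vale.Agent.P198.CH.Limit
import Vale.Agent.P198.CH.RingCount

/-!
# P198 block CH: weak quasisymmetry of the limit chart
-/

open Metric Set TopologicalSpace P198Q P198S MeasureTheory Filter
open scoped Classical ENNReal Topology

namespace P198C

variable {Z : Type*} [MetricSpace Z]

namespace Sys

variable {e : ℝ × ℝ → Z} {N : ℕ → Finset Z} {A E₀ δ₀ : ℝ} (S : Sys e N A E₀ δ₀)

/-- points outside the rectangle of level `n` are far from the approximate image -/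
theorem out {z : Z} {D' : ℝ}
    (hD' : D' < infDist (S.f z) (Ioo 0 S.Winf ×ˢ Ioo 0 1)ᶜ) :
    ∀ᶠ n in (hyperfilter ℕ : Filter ℕ), ∀ p : ℝ × ℝ, p ∉ Ioo 0 (S.W n) ×ˢ Ioo (0 : ℝ) 1 →
      D' ≤ dist p (S.fn n z) := by
  set m := infDist (S.f z) (Ioo 0 S.Winf ×ˢ Ioo 0 1)ᶜ with hm
  set η := (m - D') / 2 with hη
  have hη0 : 0 < η := by rw [hη]; linarith
  have h1 : ∀ᶠ n in (hyperfilter ℕ : Filter ℕ), dist (S.W n) S.Winf < η :=
    (Metric.tendsto_nhds.1 S.tendsto_W) η hη0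
  have h2 : ∀ᶠ n in (hyperfilter ℕ : Filter ℕ), dist (S.fn n z) (S.f z) < η :=
    (Metric.tendsto_nhds.1 (S.tendsto_f z)) η hη0
  filter_upwards [h1, h2] with n h3 h4 p hp
  have h5 : m - η ≤ dist p (S.f z) := by
    rw [Real.dist_eq, abs_lt] at h3
    by_cases hp1 : p ∈ (Ioo 0 S.Winf ×ˢ Ioo (0 : ℝ) 1)ᶜ
    · have := infDist_le_dist_of_mem (x := S.f z) hp1
      rw [dist_comm]
      linarith
    · rw [mem_compl_iff, not_not] at hp1
      obtain ⟨⟨h6, h7⟩, h8⟩ := hp1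
      have h9 : S.W n ≤ p.1 := by
        by_contra hcon
        push Not at hcon
        exact hp ⟨⟨h6, hcon⟩, h8⟩
      have h10 : ((S.Winf, p.2) : ℝ × ℝ) ∈ (Ioo 0 S.Winf ×ˢ Ioo (0 : ℝ) 1)ᶜ :=
        fun h => lt_irrefl _ h.1.2
      have h11 := infDist_le_dist_of_mem (x := S.f z) h10
      have h12 := dist_triangle (S.f z) p (S.Winf, p.2)
      have h13 : dist p (S.Winf, p.2) ≤ η := by
        rw [Prod.dist_eq]
        refine max_le ?_ ?_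
        · rw [Real.dist_eq, abs_le]; constructor <;> simp only <;> linarith
        · rw [dist_self]; exact hη0.le
      rw [dist_comm (S.f z) p] at h12
      linarith
  have h6 := dist_triangle p (S.fn n z) (S.f z)
  linarith

/-- the square of a side cell contains a point outside the open rectangle -/
theorem side_out {n : ℕ} {b : (S.B n).C} (hb : b ∈ (S.B n).side) :
    ∃ p ∈ sq (S.ρ n) (S.x n) (S.y n) b, p ∉ Ioo 0 (S.W n) ×ˢ Ioo (0 : ℝ) 1 := by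
  have hρ := (S.t n).nonneg b
  rcases hb with ((hb | hb) | hb) | hb
  · refine ⟨(S.x n b, S.y n b), ⟨⟨le_rfl, by simp only; linarith⟩, le_rfl, by simp only; linarith⟩, ?_⟩
    intro h
    have := (S.t n).bottom b hb
    have h2 := h.2.1
    simp only at h2
    linarith
  · refine ⟨(S.x n b, S.y n b + S.ρ n b), ⟨⟨le_rfl, by simp only; linarith⟩, by simp only; linarith, le_rfl⟩, ?_⟩
    intro h
    have := (S.t n).top b hb
    have h2 := h.2.2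
    simp only at h2
    linarith
  · refine ⟨(S.x n b, S.y n b), ⟨⟨le_rfl, by simp only; linarith⟩, le_rfl, by simp only; linarith⟩, ?_⟩
    intro h
    have := (S.t n).left b hb
    have h2 := h.1.1
    simp only at h2
    linarith
  · refine ⟨(S.x n b + S.ρ n b, S.y n b), ⟨⟨by simp only; linarith, le_rfl⟩, le_rfl, by simp only; linarith⟩, ?_⟩
    intro h
    have := (S.t n).right b hb
    have h2 := h.1.2
    simp only at h2
    linarith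

theorem fn_mem_sq (n : ℕ) (z : Z) : S.fn n z ∈ sq (S.ρ n) (S.x n) (S.y n) (S.pick n z) := by
  have hρ := (S.t n).nonneg (S.pick n z)
  exact ⟨⟨le_rfl, by simp only [fn]; linarith⟩, le_rfl, by simp only [fn]; linarith⟩

variable {D : ℝ → ℝ} {Q : ℕ} {Cc : ℝ} (hy : Hyp N D Q A Cc)
include hy

theorem weak_aux (hδ₀ : 0 < δ₀) {z z'' z' w₀ : Z}
    (hz : z ∈ e '' (Ioo 0 1 ×ˢ Ioo 0 1)) (hz'' : z'' ∈ e '' (Ioo 0 1 ×ˢ Ioo 0 1))
    {i : ℕ} {K₁ K₂ : Set Z}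
    (hK₁ : IsPreconnected K₁) (hzK : z ∈ K₁) (hz'K : z' ∈ K₁) (hK₁s : K₁ ⊆ closedBall z (sc i))
    (hK₂ : IsPreconnected K₂) (hz''K : z'' ∈ K₂) (hw₀K : w₀ ∈ K₂) (hw₀ : w₀ ∉ e '' (Ioo 0 1 ×ˢ Ioo 0 1))
    (hK₂s : ∀ p ∈ K₂, 2 * sc i ≤ dist p z) (Nn : ℕ) (hNn : 128 * (D (A + 1) ^ 2 * Cc) < Nn)
    (hlt : 2 ^ Nn * dist (S.f z'') (S.f z) < infDist (S.f z) (Ioo 0 S.Winf ×ˢ Ioo 0 1)ᶜ) :
    (z' ∈ e '' (Ioo 0 1 ×ˢ Ioo 0 1) ∧ S.f z' ∈ Ioo 0 S.Winf ×ˢ Ioo (0 : ℝ) 1) ∧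
      dist (S.f z') (S.f z) ≤ 2 ^ Nn * dist (S.f z'') (S.f z) := by
  by_contra hcon
  set d₀ := dist (S.f z'') (S.f z) with hd₀
  set m := infDist (S.f z) (Ioo 0 S.Winf ×ˢ Ioo 0 1)ᶜ with hm
  have hH0 : (0 : ℝ) < 2 ^ Nn := by positivity
  have hcz := ev_of_atTop (S.covered hz)
  have hcz'' := ev_of_atTop (S.covered hz'')
  -- the first far cell
  obtain ⟨Ds, hDs1, hDs2, hDs3⟩ : ∃ Ds, 2 ^ Nn * d₀ < Ds ∧ Ds ≤ m ∧ ∀ D', D' < Ds →
      ∀ᶠ n in (hyperfilter ℕ : Filter ℕ), ∃ b, Link (S.B n).H ((S.B n).hits K₁) (S.pick n z) b ∧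
        ∃ p ∈ sq (S.ρ n) (S.x n) (S.y n) b, D' ≤ dist p (S.fn n z) := by
    by_cases hz' : z' ∈ e '' (Ioo 0 1 ×ˢ Ioo 0 1)
    · refine ⟨min m (dist (S.f z') (S.f z)), lt_min hlt ?_, min_le_left _ _, ?_⟩
      · by_contra hle
        push Not at hle
        apply hcon
        refine ⟨⟨hz', ?_⟩, hle⟩
        by_contra hout
        have h1 := infDist_le_dist_of_mem (x := S.f z) (show S.f z' ∈ (Ioo 0 S.Winf ×ˢ Ioo (0 : ℝ) 1)ᶜ from hout)
        rw [dist_comm] at h1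
        linarith
      · intro D' hD'
        rw [lt_min_iff] at hD'
        have h1 : ∀ᶠ n in (hyperfilter ℕ : Filter ℕ), D' < dist (S.fn n z') (S.fn n z) :=
          ((S.tendsto_f z').dist (S.tendsto_f z)).eventually (lt_mem_nhds hD'.2)
        filter_upwards [hcz, ev_of_atTop (S.covered hz'), h1, S.out hD'.1] with n h2 h3 h4 h5
        rcases (S.B n).chain K₁ hK₁ hzK (S.pick_spec h2) with ⟨b, hb, hl⟩ | hcv
        · obtain ⟨p, hp, hpo⟩ := S.side_out hb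
          exact ⟨b, hl, p, hp, h5 p hpo⟩
        · obtain ⟨d, hd, hl⟩ := hcv z' hz'K
          have h6 := S.pick_spec h3
          exact ⟨S.pick n z', (S.B n).link_tail hl ⟨z', hd, hz'K⟩ ⟨z', h6, hz'K⟩ ⟨z', hd, h6⟩,
            S.fn n z', S.fn_mem_sq n z', h4.le⟩
    · refine ⟨m, hlt, le_rfl, ?_⟩
      intro D' hD'
      filter_upwards [hcz, S.out hD'] with n h2 h5
      rcases (S.B n).chain K₁ hK₁ hzK (S.pick_spec h2) with ⟨b, hb, hl⟩ | hcv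
      · obtain ⟨p, hp, hpo⟩ := S.side_out hb
        exact ⟨b, hl, p, hp, h5 p hpo⟩
      · exfalso
        obtain ⟨d, hd, -⟩ := hcv z' hz'K
        exact hz' ((S.B n).inner d hd)
  obtain ⟨D', hD'1, hD'2⟩ := exists_between hDs1
  have hd₀0 : 0 ≤ d₀ := dist_nonneg
  obtain ⟨d, hd1, hd2⟩ := exists_between (show d₀ < D' / 2 ^ Nn by
    rw [lt_div_iff₀ hH0]; linarith)
  rw [lt_div_iff₀ hH0] at hd2
  have hd0 : 0 < d := hd₀0.trans_lt hd1
  have hρev : ∀ᶠ n in (hyperfilter ℕ : Filter ℕ), ∀ c, S.ρ n c ≤ d := by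
    obtain ⟨i₁, h⟩ := S.equi' hy hδ₀ hd0
    filter_upwards [ev_of_atTop h] with n hn
    exact hn.1
  have hdev : ∀ᶠ n in (hyperfilter ℕ : Filter ℕ), dist (S.fn n z'') (S.fn n z) < d :=
    ((S.tendsto_f z'').dist (S.tendsto_f z)).eventually (gt_mem_nhds hd1)
  have hiev : ∀ᶠ n in (hyperfilter ℕ : Filter ℕ), i ≤ S.kk n := by
    apply ev_of_atTop
    filter_upwards [eventually_ge_atTop i] with n hn
    exact hn.trans (S.kk_ge n)
  obtain ⟨n, h1, h2, h3, h4, h5, h6, h7⟩ := (hcz.and (hcz''.and ((hDs3 D' hD'2).and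
    ((S.out (hD'2.trans_le hDs2)).and (hρev.and (hdev.and hiev)))))).exists
  obtain ⟨b₁, hl₁, hf₁⟩ := h3
  -- the second far cell
  obtain ⟨b₂, hl₂, hf₂⟩ : ∃ b, Link (S.B n).H ((S.B n).hits K₂) (S.pick n z'') b ∧
        ∃ p ∈ sq (S.ρ n) (S.x n) (S.y n) b, D' ≤ dist p (S.fn n z) := by
    rcases (S.B n).chain K₂ hK₂ hz''K (S.pick_spec h2) with ⟨b, hb, hl⟩ | hcv
    · obtain ⟨p, hp, hpo⟩ := S.side_out hb
      exact ⟨b, hl, p, hp, h4 p hpo⟩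
    · exfalso
      obtain ⟨d, hd, -⟩ := hcv w₀ hw₀K
      exact hw₀ ((S.B n).inner d hd)
  obtain ⟨τ, hτ0, hτE, hτ⟩ := exists_unit hy.net hy.dbl hy.nonneg hy.cross (S.B n) i z h7
  have hle : (2 : ℝ) ^ Nn * d ≤ D' := by linarith
  have hfin := ring_count (S.t n) (S.fn n z) d hd0 h5 Nn (by
      intro p hp
      by_contra hpo
      have h8 := h4 p hpo
      rw [mem_closedBall] at hp
      linarith)
    ((S.B n).hits K₁) ((S.B n).hits K₂) (S.pick n z) b₁ (S.pick n z'') b₂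
    ⟨z, S.pick_spec h1, hzK⟩ ⟨z'', S.pick_spec h2, hz''K⟩ hl₁ hl₂
    ⟨S.fn n z, S.fn_mem_sq n z, by rw [dist_self]; exact hd0.le⟩
    ⟨S.fn n z'', S.fn_mem_sq n z'', h6.le⟩
    (by obtain ⟨p, hp, hpd⟩ := hf₁; exact ⟨p, hp, hle.trans hpd⟩)
    (by obtain ⟨p, hp, hpd⟩ := hf₂; exact ⟨p, hp, hle.trans hpd⟩)
    τ hτ0 (by
      rintro M c c' hc ⟨p, hp, hpK⟩ hc' ⟨p', hp', hpK'⟩ hl
      exact hτ M c c' hc hl ⟨p, hp, hK₁s hpK⟩ ⟨p', hp', hK₂s p' hpK'⟩)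
  have : 128 * ∑ c, τ c ^ 2 ≤ 128 * (D (A + 1) ^ 2 * Cc) := by linarith
  linarith

end Sys

theorem exists_scale {Dm t : ℝ} (hDm : 0 ≤ Dm) (ht : 0 < t) (htD : t ≤ Dm + 1) :
    ∃ i : ℕ, sc i ≤ t ∧ t ≤ (Dm + 2) * sc i := by
  obtain ⟨k, hk⟩ := exists_sc_lt ht
  have hex : ∃ i, sc i ≤ t := ⟨k, hk.le⟩
  refine ⟨Nat.find hex, Nat.find_spec hex, ?_⟩
  rcases Nat.eq_zero_or_pos (Nat.find hex) with h | h
  · rw [h]
    have : sc 0 = 1 := by simp [sc]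
    rw [this]
    linarith
  · obtain ⟨j, hj⟩ := Nat.exists_eq_succ_of_ne_zero h.ne'
    have h1 : ¬ sc j ≤ t := Nat.find_min hex (by omega)
    push Not at h1
    have h2 : sc (Nat.find hex) = sc j / 2 := by
      rw [hj, Nat.succ_eq_add_one, sc_add]; unfold sc; norm_num; ring
    rw [h2]
    have h3 := sc_pos j
    nlinarith

namespace Sys

variable {e : ℝ × ℝ → Z} {N : ℕ → Finset Z} {A E₀ δ₀ : ℝ} (S : Sys e N A E₀ δ₀)
variable {D : ℝ → ℝ} {Q : ℕ} {Cc : ℝ} (hy : Hyp N D Q A Cc)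
include hy

/-- **Weak quasisymmetry** of the limit chart. -/
theorem weak {G : Type*} [Group G] [MulAction G Z] [CompactSpace Z] [ConnectedSpace Z] (q : QM G Z)
    (hT1 : P198L.T1 Z) (hδ₀ : 0 < δ₀) (he : Topology.IsOpenEmbedding e) :
    ∃ lam H : ℝ, 1 ≤ lam ∧ 1 ≤ H ∧
      ∀ z ∈ e '' (Ioo 0 1 ×ˢ Ioo 0 1) ∩ S.f ⁻¹' (Ioo 0 S.Winf ×ˢ Ioo (0 : ℝ) 1),
      ∀ z'' ∈ e '' (Ioo 0 1 ×ˢ Ioo 0 1) ∩ S.f ⁻¹' (Ioo 0 S.Winf ×ˢ Ioo (0 : ℝ) 1),
      ∀ z' : Z, lam * dist z z' ≤ dist z z'' →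
        H * dist (S.f z'') (S.f z) < infDist (S.f z) (Ioo 0 S.Winf ×ˢ Ioo (0 : ℝ) 1)ᶜ →
        z' ∈ e '' (Ioo 0 1 ×ˢ Ioo 0 1) ∩ S.f ⁻¹' (Ioo 0 S.Winf ×ˢ Ioo (0 : ℝ) 1) ∧
          dist (S.f z') (S.f z) ≤ H * dist (S.f z'') (S.f z) := by
  obtain ⟨L₁, hL₁, hllc1⟩ := P198L.llc1 q hT1
  obtain ⟨L₂, hL₂, hllc2⟩ := P198L.llc2 q hT1
  have ha : e (0, 0) ∉ e '' (Ioo 0 1 ×ˢ Ioo 0 1) := by
    rintro ⟨p, hp, hpe⟩
    have := he.injective hpe
    rw [this] at hp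
    exact lt_irrefl _ hp.1.1
  have hb : e (1, 1) ∉ e '' (Ioo 0 1 ×ˢ Ioo 0 1) := by
    rintro ⟨p, hp, hpe⟩
    have := he.injective hpe
    rw [this] at hp
    exact lt_irrefl _ hp.1.2
  set c₁ := dist (e (0, 0)) (e (1, 1)) / 2 with hc₁
  have hc₁0 : 0 < c₁ := by
    have : 0 < dist (e (0, 0)) (e (1, 1)) := by
      rw [dist_pos]
      intro h
      have h2 := congrArg Prod.fst (he.injective h)
      norm_num at h2
    positivity
  have hfarpt : ∀ z : Z, ∃ w₀, w₀ ∉ e '' (Ioo 0 1 ×ˢ Ioo 0 1) ∧ c₁ ≤ dist w₀ z := by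
    intro z
    have h1 := dist_triangle (e (0, 0)) z (e (1, 1))
    rw [dist_comm z] at h1
    rcases le_or_gt c₁ (dist (e (0, 0)) z) with h2 | h2
    · exact ⟨_, ha, h2⟩
    · exact ⟨_, hb, by linarith⟩
  have hbdd : Bornology.IsBounded (univ : Set Z) := isCompact_univ.isBounded
  set Dm := diam (univ : Set Z) with hDm
  have hDd : ∀ p p' : Z, dist p p' ≤ Dm := fun p p' => dist_le_diam_of_mem hbdd (mem_univ _) (mem_univ _)
  have hDm0 : 0 < Dm := by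
    have := hDd (e (0, 0)) (e (1, 1))
    linarith
  have hc₁D : c₁ ≤ Dm := by
    have := hDd (e (0, 0)) (e (1, 1))
    linarith
  obtain ⟨Nn, hNn⟩ := exists_nat_gt (128 * (D (A + 1) ^ 2 * Cc))
  set lam₀ := L₁ * (2 * L₂) * (Dm + 2) * Dm / c₁ with hlam₀
  refine ⟨max 1 lam₀, 2 ^ Nn, le_max_left _ _, one_le_pow₀ (by norm_num), ?_⟩
  rintro z ⟨hz, hfz⟩ z'' ⟨hz'', hfz''⟩ z' hzz hlt
  rcases (dist_nonneg (x := z) (y := z'')).lt_or_eq with hs | hs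
  swap
  · -- z'' = z
    have h1 : dist z z' ≤ 0 := by
      have h2 : (0 : ℝ) < max 1 lam₀ := lt_of_lt_of_le one_pos (le_max_left _ _)
      by_contra hcon
      push Not at hcon
      have := mul_pos h2 hcon
      linarith
    have h3 : z = z' := dist_le_zero.1 h1
    subst h3
    refine ⟨⟨hz, hfz⟩, ?_⟩
    rw [dist_self]
    positivity
  obtain ⟨w₀, hw₀, hw₀d⟩ := hfarpt z
  set r := min (dist z z'') c₁ with hr
  have hr0 : 0 < r := lt_min hs hc₁0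
  have hrs : r ≤ dist z z'' := min_le_left _ _
  have hrc : r ≤ c₁ := min_le_right _ _
  have hrlow : dist z z'' * c₁ ≤ r * Dm := by
    rcases le_total (dist z z'') c₁ with h | h
    · have : r = dist z z'' := min_eq_left h
      rw [this]
      have := hs.le
      nlinarith
    · have : r = c₁ := min_eq_right h
      rw [this]
      have := hDd z z''
      nlinarith
  have hL₂0 : 0 < L₂ := by linarith
  obtain ⟨i, hi1, hi2⟩ := exists_scale (Dm := Dm) (t := r / (2 * L₂)) hDm0.le (by positivity) (by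
    rw [div_le_iff₀ (by positivity)]
    nlinarith)
  have hsi := sc_pos i
  -- the inner continuum
  obtain ⟨K₁, hK₁c, hzK, hz'K, hK₁s⟩ : ∃ K₁ : Set Z, IsPreconnected K₁ ∧ z ∈ K₁ ∧ z' ∈ K₁ ∧
      K₁ ⊆ closedBall z (sc i) := by
    rcases (dist_nonneg (x := z) (y := z')).lt_or_eq with h0 | h0
    · obtain ⟨K, -, hK, h1, h2, h3⟩ := hllc1 z z z' (dist z z') h0 (by rw [dist_self]; exact h0.le)
        (by rw [dist_comm])
      refine ⟨K, hK.isPreconnected, h1, h2, h3.trans (closedBall_subset_closedBall ?_)⟩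
      have h4 : lam₀ * dist z z' ≤ dist z z'' :=
        (mul_le_mul_of_nonneg_right (le_max_right _ _) h0.le).trans hzz
      have h5 : L₁ * (2 * L₂) * (Dm + 2) * Dm * dist z z' ≤ r * Dm := by
        have h6 : lam₀ * c₁ = L₁ * (2 * L₂) * (Dm + 2) * Dm := by
          rw [hlam₀]; field_simp
        calc L₁ * (2 * L₂) * (Dm + 2) * Dm * dist z z' = lam₀ * dist z z' * c₁ := by
              rw [← h6]; ring
          _ ≤ dist z z'' * c₁ := by gcongr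
          _ ≤ r * Dm := hrlow
      have h7 : L₁ * (2 * L₂) * (Dm + 2) * dist z z' ≤ r := by
        have h8 : (L₁ * (2 * L₂) * (Dm + 2) * dist z z') * Dm ≤ r * Dm := by linarith
        exact le_of_mul_le_mul_right h8 hDm0
      have h9 : r ≤ (Dm + 2) * sc i * (2 * L₂) := by
        rwa [div_le_iff₀ (by positivity)] at hi2
      have h10 : (L₁ * dist z z') * ((2 * L₂) * (Dm + 2)) ≤ sc i * ((2 * L₂) * (Dm + 2)) := by
        linarith
      exact le_of_mul_le_mul_right h10 (by positivity)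
    · have h3 : z = z' := dist_le_zero.1 h0.symm.le
      subst h3
      exact ⟨{z}, isPreconnected_singleton, rfl, rfl, by
        rw [singleton_subset_iff]; exact mem_closedBall_self hsi.le⟩
  -- the outer continuum
  obtain ⟨K₂, -, hK₂c, hz''K, hw₀K, hK₂d⟩ := hllc2 z z'' w₀ r hr0 (by rw [dist_comm]; exact hrs)
    (hrc.trans hw₀d)
  have hK₂s : ∀ p ∈ K₂, 2 * sc i ≤ dist p z := by
    intro p hp
    by_contra hcon
    push Not at hcon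
    refine Set.disjoint_left.1 hK₂d hp (mem_closedBall.2 (hcon.le.trans ?_))
    rw [le_div_iff₀ hL₂0]
    rw [le_div_iff₀ (by positivity)] at hi1
    linarith
  obtain ⟨⟨h1, h2⟩, h3⟩ := S.weak_aux hy hδ₀ hz hz'' hK₁c hzK hz'K hK₁s hK₂c.isPreconnected hz''K hw₀K hw₀
    hK₂s Nn hNn hlt
  exact ⟨⟨h1, h2⟩, h3⟩

end Sys

/-- construction of the system of tilings -/
theorem exists_sys {e : ℝ × ℝ → Z} (he : Topology.IsOpenEmbedding e) {N : ℕ → Finset Z} (hN : IsNet N)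
    {D : ℝ → ℝ} {Q : ℕ} (hD : Doubling Z D Q)
    (hmod : ∀ t : ℝ, 0 < t → ∃ C : ℝ, ∀ k, md (N k) (hit k) (contDiam Z t) ≤ C) {A : ℝ} (hA : 0 ≤ A)
    (k₀ : ℕ) (B : ∀ k, k₀ ≤ k → Board e N k A)
    (hcov : ∀ δ : ℝ, 0 < δ → ∃ k₁, ∀ k (h : k₀ ≤ k), k₁ ≤ k →
      e '' (Icc δ (1 - δ) ×ˢ Icc δ (1 - δ)) ⊆ ⋃ c, (B k h).cell c) :
    ∃ E₀ δ₀ : ℝ, 0 < δ₀ ∧ Nonempty (Sys e N A E₀ δ₀) := by
  obtain ⟨δ₀, hδ₀, k₁, hfar⟩ := exists_far (N := N) he A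
  obtain ⟨Cδ, hCδ⟩ := hmod δ₀ hδ₀
  have hk : ∀ n, k₀ ≤ max k₀ k₁ + n := fun n => (le_max_left _ _).trans (Nat.le_add_right _ _)
  have hk' : ∀ n, k₁ ≤ max k₀ k₁ + n := fun n => (le_max_right _ _).trans (Nat.le_add_right _ _)
  choose W ρ x y ht _ _ _ using fun n => exists_tiling (B (max k₀ k₁ + n) (hk n)).H
  have hW : ∀ n, W n ≤ D (A + 1) ^ 2 * Cδ ∧ 1 ≤ D (A + 1) ^ 2 * Cδ * W n := fun n =>
    W_bounds hN hD hA (hCδ _) (B (max k₀ k₁ + n) (hk n)) (hfar _ (hk' n) _) (ht n)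
  refine ⟨D (A + 1) ^ 2 * Cδ, δ₀, hδ₀, ⟨⟨fun n => max k₀ k₁ + n, fun n => Nat.le_add_left _ _,
    fun n => B (max k₀ k₁ + n) (hk n), W, ρ, x, y, ht, fun n => (hW n).1, fun n => (hW n).2,
    fun n => hfar _ (hk' n) _, ?_⟩⟩⟩
  intro δ hδ
  obtain ⟨k₂, hk₂⟩ := hcov δ hδ
  exact ⟨k₂, fun n hn => hk₂ _ (hk n) (hn.trans (Nat.le_add_left _ _))⟩

end P198C
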