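import Vale.Agent.P198.CH.Defs

/-!
# P198 block CH: crossing weights on boards
-/

open Metric Set TopologicalSpace P198Q P198S
open scoped Classical

namespace P198C

variable {Z : Type*} [MetricSpace Z]

theorem sc_pos (k : ℕ) : 0 < sc k := by unfold sc; positivity

theorem sc_add (i j : ℕ) : sc (i + j) = sc i * sc j := by unfold sc; rw [pow_add]

theorem sc_anti {i k : ℕ} (h : i ≤ k) : sc k ≤ sc i := by
  unfold sc
  exact pow_le_pow_of_le_one (by norm_num) (by norm_num) h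

theorem sc_le_one (k : ℕ) : sc k ≤ 1 := by
  have := sc_anti (Nat.zero_le k)
  simpa [sc] using this

theorem exists_sc_lt {ε : ℝ} (h : 0 < ε) : ∃ k : ℕ, sc k < ε := by
  unfold sc
  exact exists_pow_lt_of_lt_one h (by norm_num)

theorem sum_sq_of_disjoint {ι : Type*} (s : Finset ι) (a : ι → ℝ)
    (h : ∀ i ∈ s, ∀ j ∈ s, i ≠ j → a i = 0 ∨ a j = 0) : (∑ i ∈ s, a i) ^ 2 = ∑ i ∈ s, a i ^ 2 := by
  by_cases h0 : ∀ i ∈ s, a i = 0
  · rw [Finset.sum_eq_zero h0, Finset.sum_eq_zero]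
    · norm_num
    · intro i hi
      rw [h0 i hi]; norm_num
  · push Not at h0
    obtain ⟨i, hi, hai⟩ := h0
    have h1 : ∀ j ∈ s, j ≠ i → a j = 0 := fun j hj hji => (h j hj i hi hji).resolve_right hai
    rw [Finset.sum_eq_single i h1 (fun h => absurd hi h),
      Finset.sum_eq_single i (fun j hj hji => by rw [h1 j hj hji]; norm_num) (fun h => absurd hi h)]

/-- crossing families have bounded modulus -/
def CrossBd (N : ℕ → Finset Z) (Cc : ℝ) : Prop :=
  ∀ (i k : ℕ) (v : Z), i ≤ k →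
      md ((N k).filter (fun w => dist w v ≤ 3 * sc i)) (hit k)
        {K | IsConnected (K : Set Z) ∧ (∃ x ∈ (K : Set Z), dist x v ≤ sc i) ∧
          ∃ y ∈ (K : Set Z), 2 * sc i ≤ dist y v} ≤ Cc

/-- point weights crossing one annulus scale -/
theorem exists_cross {N : ℕ → Finset Z} (hN : IsNet N) {Cc : ℝ} (hc : CrossBd N Cc) (i k : ℕ) (v : Z)
    (hik : i ≤ k) :
    ∃ τ : Z → ℝ, (∀ w, 0 ≤ τ w) ∧ (∀ w, τ w ≠ 0 → w ∈ N k ∧ dist w v ≤ 3 * sc i) ∧
      ∑ w ∈ N k, τ w ^ 2 ≤ Cc ∧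
      ∀ K : NonemptyCompacts Z, IsConnected (K : Set Z) → (∃ x ∈ (K : Set Z), dist x v ≤ sc i) →
        (∃ y ∈ (K : Set Z), 2 * sc i ≤ dist y v) → 1 ≤ ∑ w ∈ N k with hit k w K, τ w := by
  set V := (N k).filter (fun w => dist w v ≤ 3 * sc i) with hV
  set F : Set (NonemptyCompacts Z) := {K | IsConnected (K : Set Z) ∧ (∃ x ∈ (K : Set Z), dist x v ≤ sc i) ∧
          ∃ y ∈ (K : Set Z), 2 * sc i ≤ dist y v} with hF
  have h1 : ∀ K ∈ F, ∃ w ∈ V, hit k w K := by
    rintro K ⟨-, ⟨x, hx, hxv⟩, -⟩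
    obtain ⟨w, hw, hwx⟩ := hN.cov k x
    refine ⟨w, Finset.mem_filter.2 ⟨hw, ?_⟩, x, ?_, hx⟩
    · have := sc_anti hik
      have := sc_pos i
      have := dist_triangle w x v
      rw [dist_comm w x] at this
      linarith
    · exact mem_closedBall.2 hwx
  obtain ⟨σ, hσ, hσE⟩ := exists_adm V (hit k) F h1
  refine ⟨fun w => if w ∈ V then σ w else 0, ?_, ?_, ?_, ?_⟩
  · intro w
    dsimp only
    split_ifs
    · exact hσ.1 w
    · exact le_rfl
  · intro w hw
    by_cases h : w ∈ V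
    · exact Finset.mem_filter.1 h
    · simp [h] at hw
  · have h2 : ∑ w ∈ N k, (if w ∈ V then σ w else 0) ^ 2 = ∑ w ∈ V, σ w ^ 2 := by
      rw [hV, Finset.sum_filter]
      refine Finset.sum_congr rfl fun w hw => ?_
      by_cases h : dist w v ≤ 3 * sc i
      · simp [h, hw]
      · simp [h]
    rw [h2]
    exact (hσE.le.trans (hc i k v hik))
  · intro K hK hx hy
    have h3 := hσ.2 K ⟨hK, hx, hy⟩
    refine h3.trans (le_of_eq ?_)
    unfold len
    rw [hV, Finset.filter_filter, Finset.sum_filter, Finset.sum_filter]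
    refine Finset.sum_congr rfl fun w hw => ?_
    by_cases h : dist w v ≤ 3 * sc i <;> by_cases h' : hit k w K <;> simp [h, h', hw]

/-- weights supported in an annulus -/
theorem exists_annulus {N : ℕ → Finset Z} (hN : IsNet N) {Cc : ℝ} (hc : CrossBd N Cc)
    {D : ℝ → ℝ} {Q : ℕ} (hD : Doubling Z D Q) (i k : ℕ) (v : Z) (hik : i + 3 ≤ k) :
    ∃ τ : Z → ℝ, (∀ w, 0 ≤ τ w) ∧ (∀ w, τ w ≠ 0 → w ∈ N k ∧ sc i ≤ dist w v ∧ dist w v ≤ 2 * sc i) ∧
      ∑ w ∈ N k, τ w ^ 2 ≤ (D 2 * 2 ^ (Q * 3)) ^ 2 * Cc ∧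
      ∀ K : NonemptyCompacts Z, IsConnected (K : Set Z) → (∃ x ∈ (K : Set Z), dist x v ≤ sc i) →
        (∃ y ∈ (K : Set Z), 2 * sc i ≤ dist y v) → 1 ≤ ∑ w ∈ N k with hit k w K, τ w := by
  have hsi := sc_pos i
  have h8 : sc (i + 3) = sc i / 8 := by rw [sc_add]; unfold sc; norm_num; ring
  choose τ hτ0 hτs hτE hτK using fun u : Z => exists_cross hN hc (i + 3) k u hik
  set U := (N (i + 3)).filter (fun u => |dist u v - 3 / 2 * sc i| ≤ sc i / 8) with hU
  have hUc : (U.card : ℝ) ≤ D 2 * 2 ^ (Q * 3) := by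
    refine hD 2 i 3 v U (by norm_num) ?_ ?_
    · intro a ha
      have := (abs_le.1 (Finset.mem_filter.1 ha).2).2
      linarith
    · intro a ha b hb hab
      exact hN.sep (i + 3) a (Finset.mem_filter.1 ha).1 b (Finset.mem_filter.1 hb).1 hab
  have hCc : 0 ≤ Cc := (Finset.sum_nonneg fun _ _ => sq_nonneg _).trans (hτE v)
  refine ⟨fun w => ∑ u ∈ U, τ u w, ?_, ?_, ?_, ?_⟩
  · intro w
    exact Finset.sum_nonneg fun u _ => hτ0 u w
  · intro w hw
    obtain ⟨u, hu, huw⟩ := Finset.exists_ne_zero_of_sum_ne_zero hw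
    obtain ⟨h1, h2⟩ := hτs u w huw
    obtain ⟨h3, h4⟩ := abs_le.1 (Finset.mem_filter.1 hu).2
    have h5 := dist_triangle w u v
    have h6 := dist_triangle u w v
    rw [dist_comm u w] at h6
    rw [h8] at h2
    exact ⟨h1, by linarith, by linarith⟩
  · calc ∑ w ∈ N k, (∑ u ∈ U, τ u w) ^ 2
        ≤ ∑ w ∈ N k, (U.card : ℝ) * ∑ u ∈ U, τ u w ^ 2 :=
          Finset.sum_le_sum fun w _ => sq_sum_le_card_mul_sum_sq
      _ = (U.card : ℝ) * ∑ u ∈ U, ∑ w ∈ N k, τ u w ^ 2 := by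
          rw [← Finset.mul_sum, Finset.sum_comm]
      _ ≤ (U.card : ℝ) * ∑ u ∈ U, Cc := by
          gcongr with u _
          exact hτE u
      _ = (U.card : ℝ) ^ 2 * Cc := by
          rw [Finset.sum_const, nsmul_eq_mul]; ring
      _ ≤ (D 2 * 2 ^ (Q * 3)) ^ 2 * Cc := by gcongr
  · rintro K hK ⟨x, hx, hxv⟩ ⟨y, hy, hyv⟩
    -- a point at distance 3/2 sc i
    obtain ⟨z, hz, hzv⟩ : ∃ z ∈ (K : Set Z), dist z v = 3 / 2 * sc i := by
      have hcont : ContinuousOn (fun z => dist z v) (K : Set Z) := by fun_prop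
      have := hK.isPreconnected.intermediate_value hx hy hcont
      exact this ⟨by linarith, by linarith⟩
    obtain ⟨u, hu, hzu⟩ := hN.cov (i + 3) z
    have huU : u ∈ U := by
      refine Finset.mem_filter.2 ⟨hu, ?_⟩
      rw [h8] at hzu
      rw [abs_le]
      have h5 := dist_triangle u z v
      have h6 := dist_triangle z u v
      rw [dist_comm u z] at h5
      constructor <;> linarith
    have h1 := hτK u K hK ⟨z, hz, hzu⟩ ⟨x, hx, by
      rw [h8]
      rw [h8] at hzu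
      have h5 := dist_triangle z x v
      have h6 := dist_triangle z u x
      rw [dist_comm u x] at h6
      linarith⟩
    refine h1.trans (Finset.sum_le_sum fun w _ => ?_)
    exact Finset.single_le_sum (f := fun u => τ u w) (fun u _ => hτ0 u w) huU

section board

variable {e : ℝ × ℝ → Z} {N : ℕ → Finset Z} {k : ℕ} {A : ℝ}

/-- a net ball meets a cell -/
def touch (B : Board e N k A) (w : Z) (c : B.C) : Prop := (closedBall w (sc k) ∩ B.cell c).Nonempty

/-- transfer of a point weight to the cells -/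
noncomputable def tw (B : Board e N k A) (τ : Z → ℝ) (c : B.C) : ℝ :=
  ∑ w ∈ N k with touch B w c, τ w

theorem tw_nonneg (B : Board e N k A) {τ : Z → ℝ} (hτ : ∀ w, 0 ≤ τ w) (c : B.C) : 0 ≤ tw B τ c :=
  Finset.sum_nonneg fun w _ => hτ w

theorem touch_dist (B : Board e N k A) {w : Z} {c : B.C} (h : touch B w c) :
    dist w (B.ctr c) ≤ (A + 1) * sc k := by
  obtain ⟨p, hp, hpc⟩ := h
  have h1 := mem_closedBall.1 hp
  have h2 := mem_closedBall.1 (B.near c hpc)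
  have h3 := dist_triangle w p (B.ctr c)
  rw [dist_comm w p] at h3
  linarith

theorem tw_energy (hN : IsNet N) {D : ℝ → ℝ} {Q : ℕ} (hD : Doubling Z D Q) (hA : 0 ≤ A)
    (B : Board e N k A) {τ : Z → ℝ} {E : ℝ} (hE : ∑ w ∈ N k, τ w ^ 2 ≤ E) :
    ∑ c, tw B τ c ^ 2 ≤ D (A + 1) ^ 2 * E := by
  have hA1 : 0 < A + 1 := by linarith
  have hsk := sc_pos k
  have hcard1 : ∀ c : B.C, (((N k).filter (fun w => touch B w c)).card : ℝ) ≤ D (A + 1) := by
    intro c
    have := hD (A + 1) k 0 (B.ctr c) ((N k).filter (fun w => touch B w c)) hA1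
      (fun a ha => touch_dist B (Finset.mem_filter.1 ha).2)
      (fun a ha b hb hab => hN.sep k a (Finset.mem_filter.1 ha).1 b (Finset.mem_filter.1 hb).1 hab)
    simpa using this
  have hcard2 : ∀ w : Z, ((Finset.univ.filter (fun c => touch B w c)).card : ℝ) ≤ D (A + 1) := by
    intro w
    have h1 := hD (A + 1) k 0 w ((Finset.univ.filter (fun c => touch B w c)).image B.ctr) hA1
      (fun a ha => by
        obtain ⟨c, hc, rfl⟩ := Finset.mem_image.1 ha
        rw [dist_comm]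
        exact touch_dist B (Finset.mem_filter.1 hc).2)
      (fun a ha b hb hab => by
        obtain ⟨c, hc, rfl⟩ := Finset.mem_image.1 ha
        obtain ⟨c', hc', rfl⟩ := Finset.mem_image.1 hb
        exact hN.sep k _ (B.ctr_mem c) _ (B.ctr_mem c') hab)
    rw [Finset.card_image_of_injective _ B.ctr_inj] at h1
    simpa using h1
  calc ∑ c, tw B τ c ^ 2
      ≤ ∑ c, D (A + 1) * ∑ w ∈ N k with touch B w c, τ w ^ 2 := by
        refine Finset.sum_le_sum fun c _ => ?_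
        unfold tw
        refine sq_sum_le_card_mul_sum_sq.trans ?_
        exact mul_le_mul_of_nonneg_right (hcard1 c) (Finset.sum_nonneg fun _ _ => sq_nonneg _)
    _ = D (A + 1) * ∑ w ∈ N k, ((Finset.univ.filter (fun c => touch B w c)).card : ℝ) * τ w ^ 2 := by
        rw [← Finset.mul_sum]
        congr 1
        simp_rw [Finset.sum_filter]
        rw [Finset.sum_comm]
        refine Finset.sum_congr rfl fun w _ => ?_
        rw [← Finset.sum_filter, Finset.sum_const, nsmul_eq_mul]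
    _ ≤ D (A + 1) * ∑ w ∈ N k, D (A + 1) * τ w ^ 2 := by
        have h0 : 0 ≤ D (A + 1) := by
          obtain ⟨c, -⟩ := B.H.conn_univ
          exact (Nat.cast_nonneg _).trans (hcard1 c)
        gcongr with w _
        exact hcard2 w
    _ = D (A + 1) ^ 2 * ∑ w ∈ N k, τ w ^ 2 := by rw [← Finset.mul_sum]; ring
    _ ≤ D (A + 1) ^ 2 * E := by gcongr

/-- the transferred weight charges every linked set of cells whose union crosses -/
theorem tw_adm (B : Board e N k A) {τ : Z → ℝ} (hτ : ∀ w, 0 ≤ τ w) {M : Set B.C} {K : NonemptyCompacts Z}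
    (hK : ∀ w ∈ (K : Set Z), ∃ c' ∈ M, w ∈ B.cell c') :
    ∑ w ∈ N k with hit k w K, τ w ≤ ∑ c with c ∈ M, tw B τ c := by
  have h1 : ∑ c with c ∈ M, tw B τ c
      = ∑ w ∈ N k, ((Finset.univ.filter (fun c => c ∈ M ∧ touch B w c)).card : ℝ) * τ w := by
    unfold tw
    rw [Finset.sum_filter]
    simp_rw [Finset.sum_filter]
    have : ∀ c : B.C, (if c ∈ M then ∑ w ∈ N k, (if touch B w c then τ w else 0) else 0)
        = ∑ w ∈ N k, (if c ∈ M ∧ touch B w c then τ w else 0) := by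
      intro c
      by_cases hc : c ∈ M <;> simp [hc]
    simp_rw [this]
    rw [Finset.sum_comm]
    refine Finset.sum_congr rfl fun w _ => ?_
    rw [← Finset.sum_filter, Finset.sum_const, nsmul_eq_mul]
  rw [h1, Finset.sum_filter]
  refine Finset.sum_le_sum fun w _ => ?_
  split_ifs with h
  · obtain ⟨p, hp, hpK⟩ := h
    obtain ⟨c, hc, hpc⟩ := hK p hpK
    have h2 : 0 < (Finset.univ.filter (fun c => c ∈ M ∧ touch B w c)).card :=
      Finset.card_pos.2 ⟨c, Finset.mem_filter.2 ⟨Finset.mem_univ _, hc, p, hp, hpc⟩⟩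
    have h3 : (1 : ℝ) ≤ ((Finset.univ.filter (fun c => c ∈ M ∧ touch B w c)).card : ℝ) := by
      exact_mod_cast h2
    have := hτ w
    nlinarith
  · have := hτ w
    positivity

/-- weights of bounded energy charging every linked set of cells that crosses the annulus of scale `i` -/
theorem exists_unit (hN : IsNet N) {D : ℝ → ℝ} {Q : ℕ} (hD : Doubling Z D Q) (hA : 0 ≤ A) {Cc : ℝ}
    (hc : CrossBd N Cc) (B : Board e N k A) (i : ℕ) (v : Z) (hik : i ≤ k) :
    ∃ τ : B.C → ℝ, (∀ c, 0 ≤ τ c) ∧ ∑ c, τ c ^ 2 ≤ D (A + 1) ^ 2 * Cc ∧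
      ∀ (M : Set B.C) (c d : B.C), c ∈ M → Link B.H M c d → (∃ p ∈ B.cell c, dist p v ≤ sc i) →
        (∃ p ∈ B.cell d, 2 * sc i ≤ dist p v) → 1 ≤ ∑ c with c ∈ M, τ c := by
  obtain ⟨τ, h0, -, hE, hK⟩ := exists_cross hN hc i k v hik
  refine ⟨tw B τ, tw_nonneg B h0, tw_energy hN hD hA B hE, ?_⟩
  rintro M c d hcM hl ⟨p, hp, hpv⟩ ⟨p', hp', hpv'⟩
  obtain ⟨K, hKc, hcK, hdK, hKM⟩ := B.exists_union hcM hl
  exact (hK K hKc ⟨p, hcK hp, hpv⟩ ⟨p', hdK hp', hpv'⟩).trans (tw_adm B h0 hKM)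

/-- weights of small energy charging every linked set of cells that crosses many annuli -/
theorem exists_small (e : ℝ × ℝ → Z) (hN : IsNet N) {D : ℝ → ℝ} {Q : ℕ} (hD : Doubling Z D Q)
    (hA : 0 ≤ A) {Cc : ℝ}
    (hc : CrossBd N Cc) {ε : ℝ} (hε : 0 < ε) (i₀ : ℕ) :
    ∃ i₁ k₁ : ℕ, i₀ ≤ i₁ ∧ ∀ k, k₁ ≤ k → ∀ (B : Board e N k A) (v : Z),
    ∃ T : B.C → ℝ, (∀ c, 0 ≤ T c) ∧ ∑ c, T c ^ 2 ≤ ε ∧
      ∀ (M : Set B.C) (c d : B.C), c ∈ M → Link B.H M c d → (∃ p ∈ B.cell c, dist p v ≤ sc i₁) →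
        (∃ p ∈ B.cell d, sc i₀ ≤ dist p v) → 1 ≤ ∑ c with c ∈ M, T c := by
  set E := D (A + 1) ^ 2 * ((D 2 * 2 ^ (Q * 3)) ^ 2 * Cc) with hE
  obtain ⟨m, hm⟩ := exists_nat_gt (max (E / ε) 0)
  have hm0 : (0 : ℝ) < m := (le_max_right _ _).trans_lt hm
  have hmE : E / m ≤ ε := by
    have h1 := (le_max_left (E / ε) 0).trans hm.le
    rw [div_le_iff₀ hε] at h1
    rw [div_le_iff₀ hm0]
    linarith
  have hA1 : 0 < A + 1 := by linarith
  set i₁ := i₀ + 1 + 2 * m with hi₁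
  obtain ⟨k₁, hk₁⟩ := exists_sc_lt (show 0 < sc i₁ / (4 * (A + 1)) by have := sc_pos i₁; positivity)
  rw [lt_div_iff₀ (by positivity)] at hk₁
  refine ⟨i₁, max k₁ (i₁ + 3), by omega, ?_⟩
  intro k hk B v
  have hkk₁ : k₁ ≤ k := (le_max_left _ _).trans hk
  have hki : i₁ + 3 ≤ k := (le_max_right _ _).trans hk
  have hsk : 4 * (A + 1) * sc k < sc i₁ := by
    have := mul_le_mul_of_nonneg_left (sc_anti hkk₁) (show 0 ≤ 4 * (A + 1) by positivity)
    linarith
  have hann : ∀ j : ℕ, ∃ τ : Z → ℝ, (∀ w, 0 ≤ τ w) ∧ (j < m → (∀ w, τ w ≠ 0 → w ∈ N k ∧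
      sc (i₀ + 1 + 2 * j) ≤ dist w v ∧ dist w v ≤ 2 * sc (i₀ + 1 + 2 * j)) ∧
      ∑ w ∈ N k, τ w ^ 2 ≤ (D 2 * 2 ^ (Q * 3)) ^ 2 * Cc ∧
      ∀ K : NonemptyCompacts Z, IsConnected (K : Set Z) →
        (∃ x ∈ (K : Set Z), dist x v ≤ sc (i₀ + 1 + 2 * j)) →
        (∃ y ∈ (K : Set Z), 2 * sc (i₀ + 1 + 2 * j) ≤ dist y v) →
        1 ≤ ∑ w ∈ N k with hit k w K, τ w) := by
    intro j
    by_cases hj : j < m
    · obtain ⟨τ, h1, h2, h3, h4⟩ := exists_annulus hN hc hD (i₀ + 1 + 2 * j) k v (by omega)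
      exact ⟨τ, h1, fun _ => ⟨h2, h3, h4⟩⟩
    · exact ⟨fun _ => 0, fun _ => le_rfl, fun h => absurd h hj⟩
  choose τ hτ0 hτ using hann
  have hT : ∀ c, (1 / (m : ℝ) * ∑ j ∈ Finset.range m, tw B (τ j) c) ^ 2 =
      1 / (m : ℝ) ^ 2 * ∑ j ∈ Finset.range m, tw B (τ j) c ^ 2 := by
    intro c
    rw [mul_pow, sum_sq_of_disjoint]
    · rw [one_div, one_div, inv_pow]
    · -- disjoint supports
      have key : ∀ a b : ℕ, a < b → b < m → tw B (τ a) c = 0 ∨ tw B (τ b) c = 0 := by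
        intro a b hab hbm
        by_contra hcon
        push Not at hcon
        obtain ⟨w, hw, hwn⟩ := Finset.exists_ne_zero_of_sum_ne_zero hcon.1
        obtain ⟨w', hw', hwn'⟩ := Finset.exists_ne_zero_of_sum_ne_zero hcon.2
        have h1 := touch_dist B (Finset.mem_filter.1 hw).2
        have h2 := touch_dist B (Finset.mem_filter.1 hw').2
        obtain ⟨-, h3, -⟩ := (hτ a (hab.trans hbm)).1 w hwn
        obtain ⟨-, -, h4⟩ := (hτ b hbm).1 w' hwn'
        have h5 : 4 * sc (i₀ + 1 + 2 * b) ≤ sc (i₀ + 1 + 2 * a) := by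
          have h6 : sc (i₀ + 1 + 2 * b) ≤ sc (i₀ + 1 + 2 * a + 2) := sc_anti (by omega)
          have h7 : sc 2 = 1 / 4 := by unfold sc; norm_num
          have h8 : sc (i₀ + 1 + 2 * a + 2) = sc (i₀ + 1 + 2 * a) * sc 2 := sc_add _ _
          rw [h8, h7] at h6
          linarith
        have h8 : sc i₁ ≤ sc (i₀ + 1 + 2 * a) := sc_anti (by omega)
        have h9 := dist_triangle w (B.ctr c) v
        have h10 := dist_triangle (B.ctr c) w' v
        rw [dist_comm (B.ctr c) w'] at h10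
        linarith
      intro a ha b hb hab
      rw [Finset.mem_range] at ha hb
      rcases lt_or_gt_of_ne hab with h | h
      · exact key a b h hb
      · exact (key b a h ha).symm
  refine ⟨fun c => 1 / (m : ℝ) * ∑ j ∈ Finset.range m, tw B (τ j) c, ?_, ?_, ?_⟩
  · intro c
    exact mul_nonneg (by positivity) (Finset.sum_nonneg fun j _ => tw_nonneg B (hτ0 j) c)
  · simp_rw [hT]
    rw [← Finset.mul_sum, Finset.sum_comm]
    calc 1 / (m : ℝ) ^ 2 * ∑ j ∈ Finset.range m, ∑ c, tw B (τ j) c ^ 2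
        ≤ 1 / (m : ℝ) ^ 2 * ∑ j ∈ Finset.range m, E := by
          gcongr with j hj
          exact tw_energy hN hD hA B (hτ j (Finset.mem_range.1 hj)).2.1
      _ = E / m := by
          rw [Finset.sum_const, Finset.card_range, nsmul_eq_mul]
          field_simp
      _ ≤ ε := hmE
  · rintro M c d hcM hl ⟨p, hp, hpv⟩ ⟨p', hp', hpv'⟩
    obtain ⟨K, hKc, hcK, hdK, hKM⟩ := B.exists_union hcM hl
    have h1 : ∀ j ∈ Finset.range m, 1 ≤ ∑ c with c ∈ M, tw B (τ j) c := by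
      intro j hj
      rw [Finset.mem_range] at hj
      refine ((hτ j hj).2.2 K hKc ⟨p, hcK hp, hpv.trans (sc_anti (by omega))⟩
        ⟨p', hdK hp', ?_⟩).trans (tw_adm B (hτ0 j) hKM)
      have h2 : sc (i₀ + 1 + 2 * j) ≤ sc (i₀ + 1) := sc_anti (by omega)
      have h3 : sc (i₀ + 1) = sc i₀ / 2 := by rw [sc_add]; unfold sc; norm_num; ring
      rw [h3] at h2
      linarith
    rw [← Finset.mul_sum, Finset.sum_comm]
    have h2 : (m : ℝ) ≤ ∑ j ∈ Finset.range m, ∑ c with c ∈ M, tw B (τ j) c := by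
      calc (m : ℝ) = ∑ j ∈ Finset.range m, (1 : ℝ) := by simp
        _ ≤ _ := Finset.sum_le_sum h1
    rw [one_div, ← div_eq_inv_mul, le_div_iff₀ hm0, one_mul]
    exact h2

end board

end P198C
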